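import Mathlib.MeasureTheory.Integral.CircleAverage
import Mathlib.Analysis.SpecialFunctions.PolarCoord
import Mathlib.Analysis.SpecialFunctions.Integrals.Basic
import Mathlib.Analysis.Calculus.ContDiff.Operations
import Mathlib.Analysis.Calculus.FDeriv.Symmetric
import Mathlib.MeasureTheory.Integral.Prod
import Mathlib.Analysis.InnerProductSpace.Calculus

/-!
# P272, block GJ: the Green-Jensen formula on a disc

`∫_{|z|<r} (2/π) log(r/|z|) ∂_z∂_{z̄} φ dA = (average of φ over |z| = r) - φ(0)`.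
-/

open MeasureTheory Set Metric Complex
open scoped Real Topology

noncomputable section

namespace Vale.Agent.P272.GJ

/-- `∂_z ∂_{z̄} φ = Δφ/4` for a real function `φ` on `ℂ`. -/
def ddb (φ : ℂ → ℝ) (z : ℂ) : ℝ :=
  (fderiv ℝ (fun w => fderiv ℝ φ w 1) z 1 + fderiv ℝ (fun w => fderiv ℝ φ w I) z I) / 4

/-- the Green function of the disc of radius `r`, with the normalisation
`∫ G_r ∂_z∂_{z̄} φ = circleAverage φ 0 r - φ 0` -/
def Gr (r : ℝ) (z : ℂ) : ℝ := 2 / π * Real.log (r / ‖z‖)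

lemma fderiv_fderiv_apply {φ : ℂ → ℝ} {z : ℂ} (h : ContDiffAt ℝ 2 φ z) (u v : ℂ) :
    fderiv ℝ (fun w => fderiv ℝ φ w v) z u = fderiv ℝ (fderiv ℝ φ) z u v := by
  have h1 : DifferentiableAt ℝ (fderiv ℝ φ) z :=
    (h.fderiv_right (m := 1) (by norm_num)).differentiableAt (by norm_num)
  have h2 := (ContinuousLinearMap.apply ℝ ℝ v).hasFDerivAt.comp z h1.hasFDerivAt
  have h3 : HasFDerivAt (fun w => fderiv ℝ φ w v)
      ((ContinuousLinearMap.apply ℝ ℝ v).comp (fderiv ℝ (fderiv ℝ φ) z)) z := h2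
  rw [h3.fderiv]
  rfl

lemma ddb_eq {φ : ℂ → ℝ} {z : ℂ} (h : ContDiffAt ℝ 2 φ z) :
    ddb φ z = (fderiv ℝ (fderiv ℝ φ) z 1 1 + fderiv ℝ (fderiv ℝ φ) z I I) / 4 := by
  rw [ddb, fderiv_fderiv_apply h, fderiv_fderiv_apply h]

lemma symm_two {φ : ℂ → ℝ} {z : ℂ} (h : ContDiffAt ℝ 2 φ z) (u v : ℂ) :
    fderiv ℝ (fderiv ℝ φ) z u v = fderiv ℝ (fderiv ℝ φ) z v u :=
  (h.isSymmSndFDerivAt (by simp)) u v

/-- rotation invariance -/
lemma ddb_eq_rot {φ : ℂ → ℝ} {z : ℂ} (h : ContDiffAt ℝ 2 φ z) (θ : ℝ) :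
    4 * ddb φ z = fderiv ℝ (fderiv ℝ φ) z (exp (θ * I)) (exp (θ * I)) +
      fderiv ℝ (fderiv ℝ φ) z (I * exp (θ * I)) (I * exp (θ * I)) := by
  set B := fderiv ℝ (fderiv ℝ φ) z with hB
  have e1 : (exp (θ * I) : ℂ) = (Real.cos θ) • (1 : ℂ) + (Real.sin θ) • I := by
    rw [exp_mul_I]; simp
  have e2 : (I * exp (θ * I) : ℂ) = (-Real.sin θ) • (1 : ℂ) + (Real.cos θ) • I := by
    rw [e1]; simp; ring_nf; simp; ring
  have hs : B 1 I = B I 1 := symm_two h _ _
  rw [ddb_eq h, e2, e1]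
  simp only [map_add, map_smul, add_apply, smul_apply,
    smul_eq_mul]
  rw [← hB, hs]
  have hcs := Real.sin_sq_add_cos_sq θ
  linear_combination (-(B 1 1) - (B I I)) * hcs


/-- the point `ρ e^{iθ}` -/
def pt (ρ θ : ℝ) : ℂ := ρ * exp (θ * I)

lemma norm_pt (ρ θ : ℝ) : ‖pt ρ θ‖ = |ρ| := by
  simp [pt, norm_exp_ofReal_mul_I]

lemma pt_mem {r ρ : ℝ} (h0 : 0 ≤ ρ) (h1 : ρ ≤ r) (θ : ℝ) : pt ρ θ ∈ closedBall (0 : ℂ) r := by
  rw [mem_closedBall, dist_zero_right, norm_pt, abs_of_nonneg h0]; exact h1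

lemma continuous_pt : Continuous fun p : ℝ × ℝ => pt p.1 p.2 := by
  unfold pt; fun_prop

section
variable {φ : ℂ → ℝ} {r : ℝ}

lemma contOn0 (hφ : ∀ z ∈ closedBall (0 : ℂ) r, ContDiffAt ℝ 2 φ z) :
    ContinuousOn φ (closedBall 0 r) := fun z hz => (hφ z hz).continuousAt.continuousWithinAt

lemma contOn1 (hφ : ∀ z ∈ closedBall (0 : ℂ) r, ContDiffAt ℝ 2 φ z) :
    ContinuousOn (fderiv ℝ φ) (closedBall 0 r) := fun z hz =>
  ((hφ z hz).fderiv_right (m := 1) (by norm_num)).continuousAt.continuousWithinAt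

lemma contOn2 (hφ : ∀ z ∈ closedBall (0 : ℂ) r, ContDiffAt ℝ 2 φ z) :
    ContinuousOn (fderiv ℝ (fderiv ℝ φ)) (closedBall 0 r) := fun z hz =>
  (((hφ z hz).fderiv_right (m := 1) (by norm_num)).fderiv_right (m := 0)
    (by norm_num)).continuousAt.continuousWithinAt

lemma contOn_ddb (hφ : ∀ z ∈ closedBall (0 : ℂ) r, ContDiffAt ℝ 2 φ z) :
    ContinuousOn (ddb φ) (closedBall 0 r) := by
  have h2 := contOn2 hφ
  have h3 : ContinuousOn (fun z => (fderiv ℝ (fderiv ℝ φ) z 1 1 +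
      fderiv ℝ (fderiv ℝ φ) z I I) / 4) (closedBall 0 r) := by fun_prop
  exact h3.congr fun z hz => ddb_eq (hφ z hz)

lemma hasDerivAt_pt (ρ θ : ℝ) : HasDerivAt (fun ρ => pt ρ θ) (exp (θ * I)) ρ := by
  have h : HasDerivAt (fun ρ : ℝ => (ρ : ℂ)) 1 ρ := ofRealCLM.hasDerivAt
  simpa [pt] using h.mul_const (exp (θ * I))

lemma hasDerivAt_pt' (ρ θ : ℝ) : HasDerivAt (fun θ => pt ρ θ) (ρ * (I * exp (θ * I))) θ := by
  have h : HasDerivAt (fun θ : ℝ => (θ : ℂ) * I) (1 * I) θ := ofRealCLM.hasDerivAt.mul_const I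
  have h2 := (h.cexp.const_mul (ρ : ℂ))
  simpa [pt, mul_comm, mul_assoc, mul_left_comm] using h2

lemma mul_log_eq (r ρ : ℝ) (hr : 0 < r) : Real.log (r / ρ) * ρ = ρ * Real.log r - ρ * Real.log ρ := by
  rcases eq_or_ne ρ 0 with h | h
  · simp [h]
  · rw [Real.log_div hr.ne' h]; ring

lemma intervalIntegrable_log_div (hr : 0 < r) :
    IntervalIntegrable (fun ρ => Real.log (r / ρ)) volume 0 r := by
  have h1 : IntervalIntegrable (fun ρ => Real.log r - Real.log ρ) volume 0 r :=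
    intervalIntegrable_const.sub intervalIntegral.intervalIntegrable_log'
  refine h1.congr_ae ?_
  refine (ae_restrict_of_ae ?_)
  filter_upwards [compl_mem_ae_iff.2 (measure_singleton (0 : ℝ))] with ρ hρ
  rw [Real.log_div hr.ne' (by simpa using hρ)]

/-- the fundamental theorem of calculus on a radius -/
lemma radial (hr : 0 < r) (hφ : ∀ z ∈ closedBall (0 : ℂ) r, ContDiffAt ℝ 2 φ z) (θ : ℝ) :
    ∫ ρ in (0 : ℝ)..r, Real.log (r / ρ) * (fderiv ℝ φ (pt ρ θ) (exp (θ * I)) +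
      ρ * fderiv ℝ (fderiv ℝ φ) (pt ρ θ) (exp (θ * I)) (exp (θ * I))) =
      φ (pt r θ) - φ 0 := by
  set e : ℂ := exp (θ * I) with he
  have hmaps : MapsTo (fun ρ => pt ρ θ) (Icc 0 r) (closedBall (0 : ℂ) r) := fun ρ hρ =>
    pt_mem hρ.1 hρ.2 θ
  have hcpt : Continuous fun ρ => pt ρ θ := by unfold pt; fun_prop
  have c0 : ContinuousOn (fun ρ => φ (pt ρ θ)) (Icc 0 r) :=
    (contOn0 hφ).comp hcpt.continuousOn hmaps
  have c1 : ContinuousOn (fun ρ => fderiv ℝ φ (pt ρ θ)) (Icc 0 r) :=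
    (contOn1 hφ).comp hcpt.continuousOn hmaps
  have c2 : ContinuousOn (fun ρ => fderiv ℝ (fderiv ℝ φ) (pt ρ θ)) (Icc 0 r) :=
    (contOn2 hφ).comp hcpt.continuousOn hmaps
  set h : ℝ → ℝ := fun ρ => (ρ * Real.log r - ρ * Real.log ρ) * fderiv ℝ φ (pt ρ θ) e +
    φ (pt ρ θ) with hh
  have hcont : ContinuousOn h (Icc 0 r) := by
    have : Continuous fun ρ : ℝ => ρ * Real.log r - ρ * Real.log ρ :=
      (continuous_id.mul continuous_const).sub Real.continuous_mul_log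
    exact (this.continuousOn.mul (c1.clm_apply continuousOn_const)).add c0
  have hder : ∀ ρ ∈ Ioo 0 r, HasDerivAt h (Real.log (r / ρ) * (fderiv ℝ φ (pt ρ θ) e +
      ρ * fderiv ℝ (fderiv ℝ φ) (pt ρ θ) e e)) ρ := by
    intro ρ hρ
    have hz := hφ _ (hmaps ⟨hρ.1.le, hρ.2.le⟩)
    have d0 : HasDerivAt (fun ρ => φ (pt ρ θ)) (fderiv ℝ φ (pt ρ θ) e) ρ :=
      (hz.differentiableAt (by norm_num)).hasFDerivAt.comp_hasDerivAt ρ (hasDerivAt_pt ρ θ)
    have h1 : DifferentiableAt ℝ (fderiv ℝ φ) (pt ρ θ) :=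
      (hz.fderiv_right (m := 1) (by norm_num)).differentiableAt (by norm_num)
    have d1' : HasDerivAt (fun ρ => fderiv ℝ φ (pt ρ θ)) (fderiv ℝ (fderiv ℝ φ) (pt ρ θ) e) ρ :=
      h1.hasFDerivAt.comp_hasDerivAt ρ (hasDerivAt_pt ρ θ)
    have d1 : HasDerivAt (fun ρ => fderiv ℝ φ (pt ρ θ) e)
        (fderiv ℝ (fderiv ℝ φ) (pt ρ θ) e e) ρ := by
      simpa using d1'.clm_apply (hasDerivAt_const ρ e)
    have dl : HasDerivAt (fun ρ : ℝ => ρ * Real.log r - ρ * Real.log ρ)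
        (Real.log r - (Real.log ρ + 1)) ρ := by
      have a1 : HasDerivAt (fun ρ : ℝ => ρ * Real.log r) (1 * Real.log r) ρ :=
        (hasDerivAt_id ρ).mul_const _
      have a2 := Real.hasDerivAt_mul_log hρ.1.ne'
      refine (a1.fun_sub a2).congr_deriv ?_
      ring
    have := (dl.mul d1).add d0
    refine this.congr_deriv ?_
    rw [Real.log_div hr.ne' hρ.1.ne']
    ring
  have hint : IntervalIntegrable (fun ρ => Real.log (r / ρ) * (fderiv ℝ φ (pt ρ θ) e +
      ρ * fderiv ℝ (fderiv ℝ φ) (pt ρ θ) e e)) volume 0 r := by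
    refine (intervalIntegrable_log_div hr).mul_continuousOn ?_
    rw [uIcc_of_le hr.le]
    exact (c1.clm_apply continuousOn_const).add
      (continuousOn_id.mul ((c2.clm_apply continuousOn_const).clm_apply continuousOn_const))
  rw [intervalIntegral.integral_eq_sub_of_hasDerivAt_of_le hr.le hcont hder hint]
  simp [hh, pt]

/-- the angular derivative integrates to zero -/
lemma angular (hφ : ∀ z ∈ closedBall (0 : ℂ) r, ContDiffAt ℝ 2 φ z) {ρ : ℝ} (h0 : 0 ≤ ρ)
    (h1 : ρ ≤ r) :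
    ∫ θ in (-π)..π, (ρ * fderiv ℝ (fderiv ℝ φ) (pt ρ θ) (I * exp (θ * I)) (I * exp (θ * I)) -
      fderiv ℝ φ (pt ρ θ) (exp (θ * I))) = 0 := by
  have hcpt : Continuous fun θ => pt ρ θ := by unfold pt; fun_prop
  have hmaps : ∀ θ, pt ρ θ ∈ closedBall (0 : ℂ) r := fun θ => pt_mem h0 h1 θ
  have c1 : Continuous (fun θ => fderiv ℝ φ (pt ρ θ)) := by
    rw [← continuousOn_univ]
    exact (contOn1 hφ).comp hcpt.continuousOn fun θ _ => hmaps θ
  have c2 : Continuous (fun θ => fderiv ℝ (fderiv ℝ φ) (pt ρ θ)) := by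
    rw [← continuousOn_univ]
    exact (contOn2 hφ).comp hcpt.continuousOn fun θ _ => hmaps θ
  have hder : ∀ θ ∈ uIcc (-π) π, HasDerivAt (fun θ : ℝ => fderiv ℝ φ (pt ρ θ) (I * exp (θ * I)))
      (ρ * fderiv ℝ (fderiv ℝ φ) (pt ρ θ) (I * exp (θ * I)) (I * exp (θ * I)) -
      fderiv ℝ φ (pt ρ θ) (exp (θ * I))) θ := by
    intro θ _
    have hz := hφ _ (hmaps θ)
    have h1 : DifferentiableAt ℝ (fderiv ℝ φ) (pt ρ θ) :=
      (hz.fderiv_right (m := 1) (by norm_num)).differentiableAt (by norm_num)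
    have d1' : HasDerivAt (fun θ => fderiv ℝ φ (pt ρ θ))
        (fderiv ℝ (fderiv ℝ φ) (pt ρ θ) (ρ * (I * exp (θ * I)))) θ :=
      h1.hasFDerivAt.comp_hasDerivAt θ (hasDerivAt_pt' ρ θ)
    have d2 : HasDerivAt (fun θ : ℝ => I * exp (θ * I)) (-exp (θ * I)) θ := by
      have h : HasDerivAt (fun θ : ℝ => (θ : ℂ) * I) (1 * I) θ := ofRealCLM.hasDerivAt.mul_const I
      have h2 := (h.cexp.const_mul I)
      refine h2.congr_deriv ?_
      linear_combination exp (θ * I) * I_mul_I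
    have := d1'.clm_apply d2
    refine this.congr_deriv ?_
    have e1 : (ρ * (I * exp (θ * I)) : ℂ) = ρ • (I * exp (θ * I)) := by simp
    rw [e1, map_smul, map_neg]
    simp only [smul_apply, smul_eq_mul]
    ring
  have hce : Continuous fun θ : ℝ => exp (θ * I) := by fun_prop
  have hint : IntervalIntegrable (fun θ : ℝ => ρ * fderiv ℝ (fderiv ℝ φ) (pt ρ θ)
      (I * exp (θ * I)) (I * exp (θ * I)) - fderiv ℝ φ (pt ρ θ) (exp (θ * I))) volume (-π) π := by
    refine Continuous.intervalIntegrable ?_ _ _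
    exact (continuous_const.mul ((c2.clm_apply (continuous_const.mul hce)).clm_apply
      (continuous_const.mul hce))).sub (c1.clm_apply hce)
  rw [intervalIntegral.integral_eq_sub_of_hasDerivAt hder hint]
  have e1 : exp ((π : ℝ) * I) = exp (((-π : ℝ) : ℂ) * I) := by
    rw [exp_pi_mul_I]; push_cast; rw [neg_mul, exp_neg, exp_pi_mul_I]; norm_num
  unfold pt
  rw [e1, sub_self]

end

/-! ### polar coordinates on a disc -/

/-- integration over a disc in polar coordinates -/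
lemma setIntegral_ball_polar {E : Type*} [NormedAddCommGroup E] [NormedSpace ℝ E]
    (f : ℂ → E) (r : ℝ) :
    ∫ z in ball (0 : ℂ) r, f z = ∫ p in Ioo 0 r ×ˢ Ioo (-π) π, p.1 • f (pt p.1 p.2) := by
  rw [← integral_indicator measurableSet_ball, ← Complex.integral_comp_polarCoord_symm]
  have hpt : ∀ p : ℝ × ℝ, Complex.polarCoord.symm p = pt p.1 p.2 := by
    intro p
    rw [Complex.polarCoord_symm_apply, pt, exp_mul_I]
    simp
  have h1 : ∀ p ∈ polarCoord.target, p.1 • (ball (0 : ℂ) r).indicator f (Complex.polarCoord.symm p) =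
      (Ioo 0 r ×ˢ Ioo (-π) π).indicator (fun p : ℝ × ℝ => p.1 • f (pt p.1 p.2)) p := by
    intro p hp
    rw [polarCoord_target] at hp
    have hp1 : 0 < p.1 := hp.1
    rw [hpt]
    by_cases h : p.1 < r
    · rw [indicator_of_mem, indicator_of_mem]
      · exact ⟨⟨hp1, h⟩, hp.2⟩
      · rw [mem_ball, dist_zero_right, norm_pt, abs_of_pos hp1]; exact h
    · rw [indicator_of_notMem, indicator_of_notMem, smul_zero]
      · intro h'; exact h h'.1.2
      · rw [mem_ball, dist_zero_right, norm_pt, abs_of_pos hp1]; exact h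
  rw [setIntegral_congr_fun (polarCoord.open_target.measurableSet) h1,
    setIntegral_indicator (measurableSet_Ioo.prod measurableSet_Ioo)]
  congr 2
  rw [polarCoord_target]
  ext p
  simp only [mem_inter_iff, mem_prod, mem_Ioi, mem_Ioo]
  tauto

lemma circleAverage_eq_pi {E : Type*} [NormedAddCommGroup E] [NormedSpace ℝ E]
    (f : ℂ → E) (r : ℝ) :
    Real.circleAverage f 0 r = (2 * π)⁻¹ • ∫ θ in (-π)..π, f (pt r θ) := by
  rw [Real.circleAverage_eq_integral_add (η := -π)]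
  congr 1
  rw [intervalIntegral.integral_comp_add_right (fun θ => f (circleMap 0 r θ)) (-π)]
  have e1 : 0 + -π = -π := by ring
  have e2 : 2 * π + -π = π := by ring
  rw [e1, e2]
  refine intervalIntegral.integral_congr fun θ _ => ?_
  simp [circleMap, pt]

lemma integrableOn_log_mul {r : ℝ} (hr : 0 < r) {g : ℝ × ℝ → ℝ}
    (hg : ContinuousOn g (Icc 0 r ×ˢ Icc (-π) π)) :
    IntegrableOn (fun p : ℝ × ℝ => Real.log (r / p.1) * g p) (Ioo 0 r ×ˢ Ioo (-π) π)
      (volume.prod volume) := by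
  have hsub : Ioo (0:ℝ) r ×ˢ Ioo (-π) π ⊆ Icc 0 r ×ˢ Icc (-π) π :=
    prod_mono Ioo_subset_Icc_self Ioo_subset_Icc_self
  obtain ⟨C, hC⟩ := (isCompact_Icc.prod isCompact_Icc).exists_bound_of_continuousOn hg
  have hms : MeasurableSet (Ioo (0:ℝ) r ×ˢ Ioo (-π) π) := measurableSet_Ioo.prod measurableSet_Ioo
  have h1 : IntegrableOn (fun ρ => Real.log (r / ρ)) (Ioo 0 r) := by
    have := (intervalIntegrable_log_div hr)
    rw [intervalIntegrable_iff_integrableOn_Ioo_of_le hr.le] at this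
    exact this
  have h2 : IntegrableOn (fun p : ℝ × ℝ => Real.log (r / p.1)) (Ioo 0 r ×ˢ Ioo (-π) π)
      (volume.prod volume) := by
    unfold IntegrableOn
    rw [← Measure.prod_restrict]
    exact Integrable.comp_fst h1 _
  refine Integrable.mul_bdd (c := C) h2 ?_ ?_
  · exact (hg.mono hsub).aestronglyMeasurable hms
  · filter_upwards [ae_restrict_mem hms] with p hp
    exact hC p (hsub hp)

section
variable {φ : ℂ → ℝ} {r : ℝ}

lemma contOn_pt_prod {E : Type*} [TopologicalSpace E] {g : ℂ → E}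
    (hg : ContinuousOn g (closedBall 0 r)) :
    ContinuousOn (fun p : ℝ × ℝ => g (pt p.1 p.2)) (Icc 0 r ×ˢ Icc (-π) π) :=
  hg.comp continuous_pt.continuousOn fun p hp => pt_mem hp.1.1 hp.1.2 _

/-- **Green-Jensen**. -/
theorem green_jensen (hr : 0 < r) (hφ : ∀ z ∈ closedBall (0 : ℂ) r, ContDiffAt ℝ 2 φ z) :
    ∫ z in ball (0 : ℂ) r, Gr r z * ddb φ z = Real.circleAverage φ 0 r - φ 0 := by
  set e : ℝ → ℂ := fun θ => exp (θ * I) with he
  have hce : Continuous e := by fun_prop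
  set A : ℝ × ℝ → ℝ := fun p => fderiv ℝ φ (pt p.1 p.2) (e p.2) with hA
  set B : ℝ × ℝ → ℝ := fun p => fderiv ℝ (fderiv ℝ φ) (pt p.1 p.2) (e p.2) (e p.2) with hB
  set C : ℝ × ℝ → ℝ := fun p => fderiv ℝ (fderiv ℝ φ) (pt p.1 p.2) (I * e p.2) (I * e p.2) with hC
  have c1 := contOn_pt_prod (contOn1 hφ)
  have c2 := contOn_pt_prod (contOn2 hφ)
  have ce2 : Continuous fun p : ℝ × ℝ => e p.2 := hce.comp continuous_snd
  have cA : ContinuousOn A (Icc 0 r ×ˢ Icc (-π) π) := c1.clm_apply ce2.continuousOn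
  have cB : ContinuousOn B (Icc 0 r ×ˢ Icc (-π) π) :=
    (c2.clm_apply ce2.continuousOn).clm_apply ce2.continuousOn
  have cC : ContinuousOn C (Icc 0 r ×ˢ Icc (-π) π) :=
    (c2.clm_apply (continuous_const.mul ce2).continuousOn).clm_apply
      (continuous_const.mul ce2).continuousOn
  have i1 : IntegrableOn (fun p : ℝ × ℝ => Real.log (r / p.1) * (A p + p.1 * B p))
      (Ioo 0 r ×ˢ Ioo (-π) π) (volume.prod volume) :=
    integrableOn_log_mul hr (cA.add (continuousOn_fst.mul cB))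
  have i2 : IntegrableOn (fun p : ℝ × ℝ => Real.log (r / p.1) * (p.1 * C p - A p))
      (Ioo 0 r ×ˢ Ioo (-π) π) (volume.prod volume) :=
    integrableOn_log_mul hr ((continuousOn_fst.mul cC).sub cA)
  have hms : MeasurableSet (Ioo (0:ℝ) r ×ˢ Ioo (-π) π) := measurableSet_Ioo.prod measurableSet_Ioo
  have key : ∀ p ∈ Ioo (0:ℝ) r ×ˢ Ioo (-π) π, p.1 • (Gr r (pt p.1 p.2) * ddb φ (pt p.1 p.2)) =
      (2 * π)⁻¹ * (Real.log (r / p.1) * (A p + p.1 * B p) +
        Real.log (r / p.1) * (p.1 * C p - A p)) := by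
    intro p hp
    have hz := hφ _ (pt_mem hp.1.1.le hp.1.2.le p.2)
    have h4 := ddb_eq_rot hz p.2
    rw [smul_eq_mul, Gr, norm_pt, abs_of_pos hp.1.1]
    simp only [hA, hB, hC, he]
    have hpi : (π : ℝ) ≠ 0 := Real.pi_ne_zero
    field_simp
    linear_combination (Real.log (r / p.1) * p.1) * h4
  rw [setIntegral_ball_polar, setIntegral_congr_fun hms key]
  rw [Measure.volume_eq_prod, integral_const_mul, integral_add i1 i2]
  have hr' : (0:ℝ) ≤ r := hr.le
  have hpi : -π ≤ π := by linarith [Real.pi_pos]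
  -- the angular part
  have z2 : ∫ p in Ioo (0:ℝ) r ×ˢ Ioo (-π) π, Real.log (r / p.1) * (p.1 * C p - A p)
      ∂(volume.prod volume) = 0 := by
    rw [setIntegral_prod _ i2]
    refine (setIntegral_congr_fun measurableSet_Ioo (g := fun _ => (0:ℝ)) fun ρ hρ => ?_).trans
      (by simp)
    have h := angular hφ hρ.1.le hρ.2.le
    rw [intervalIntegral.integral_of_le hpi, integral_Ioc_eq_integral_Ioo] at h
    simp only [hA, hC, he]
    rw [integral_const_mul, h, mul_zero]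
  have z1 : ∫ p in Ioo (0:ℝ) r ×ˢ Ioo (-π) π, Real.log (r / p.1) * (A p + p.1 * B p)
      ∂(volume.prod volume) = ∫ θ in (-π)..π, (φ (pt r θ) - φ 0) := by
    rw [← setIntegral_prod_swap, setIntegral_prod]
    · rw [intervalIntegral.integral_of_le hpi, integral_Ioc_eq_integral_Ioo]
      refine setIntegral_congr_fun measurableSet_Ioo fun θ _ => ?_
      have h := radial hr hφ θ
      rw [intervalIntegral.integral_of_le hr', integral_Ioc_eq_integral_Ioo] at h
      exact h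
    · have := i1
      unfold IntegrableOn at this ⊢
      rw [← Measure.prod_restrict] at this ⊢
      exact this.swap
  have c0 : Continuous fun θ => φ (pt r θ) := by
    rw [← continuousOn_univ]
    refine (contOn0 hφ).comp ?_ fun θ _ => pt_mem hr' le_rfl θ
    unfold pt; fun_prop
  rw [z1, z2, add_zero, intervalIntegral.integral_sub (c0.intervalIntegrable _ _)
    (continuous_const.intervalIntegrable _ _), circleAverage_eq_pi, intervalIntegral.integral_const]
  have hpi0 : (π : ℝ) ≠ 0 := Real.pi_ne_zero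
  simp only [smul_eq_mul]
  field_simp
  ring

end

/-! ### the total mass of the Green function and integrability -/

lemma ddb_norm_sq (z : ℂ) : ddb (fun w => ‖w‖ ^ 2) z = 1 := by
  have h1 : ∀ v : ℂ, (fun w : ℂ => fderiv ℝ (fun w : ℂ => ‖w‖ ^ 2) w v) =
      fun w => 2 * (inner ℝ w v) := by
    intro v
    funext w
    rw [(hasStrictFDerivAt_norm_sq w).hasFDerivAt.fderiv]
    simp
    ring
  have h2 : ∀ v : ℂ, fderiv ℝ (fun w : ℂ => 2 * (inner ℝ w v)) z v = 2 * ‖v‖ ^ 2 := by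
    intro v
    have h3 : HasFDerivAt (fun w : ℂ => 2 * (inner ℝ w v)) ((2 : ℝ) • (innerSL ℝ v)) z := by
      have := ((innerSL ℝ v).hasFDerivAt (x := z)).const_mul (2 : ℝ)
      refine this.congr_of_eventuallyEq (Filter.Eventually.of_forall fun w => ?_)
      simp [real_inner_comm]
    rw [h3.fderiv]
    simp
  rw [ddb, h1, h1, h2, h2]
  norm_num

theorem integral_Gr {r : ℝ} (hr : 0 < r) : ∫ z in ball (0 : ℂ) r, Gr r z = r ^ 2 := by
  have h := green_jensen (φ := fun w : ℂ => ‖w‖ ^ 2) hr fun z _ => (contDiff_norm_sq ℝ).contDiffAt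
  simp only [ddb_norm_sq, mul_one] at h
  rw [h]
  have h2 : Set.EqOn (fun w : ℂ => ‖w‖ ^ 2) (fun _ => r ^ 2) (sphere 0 |r|) := by
    intro w hw
    have : ‖w‖ = |r| := by simpa using hw
    simp [this]
  rw [Real.circleAverage_congr_sphere h2, Real.circleAverage_const]
  simp

theorem integrableOn_Gr {r : ℝ} (hr : 0 < r) : IntegrableOn (Gr r) (ball (0 : ℂ) r) := by
  refine Integrable.of_integral_ne_zero ?_
  rw [integral_Gr hr]
  positivity

lemma Gr_nonneg {r : ℝ} {z : ℂ} (hz : z ∈ ball (0 : ℂ) r) : 0 ≤ Gr r z := by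
  rw [mem_ball, dist_zero_right] at hz
  unfold Gr
  rcases eq_or_ne z 0 with h | h
  · simp [h]
  · have h0 : 0 < ‖z‖ := norm_pos_iff.2 h
    have : 0 ≤ Real.log (r / ‖z‖) := Real.log_nonneg ((one_le_div h0).2 hz.le)
    have hpi := Real.pi_pos
    positivity

lemma Gr_pos {r : ℝ} {z : ℂ} (hz : z ∈ ball (0 : ℂ) r) (h : z ≠ 0) : 0 < Gr r z := by
  rw [mem_ball, dist_zero_right] at hz
  unfold Gr
  have h0 : 0 < ‖z‖ := norm_pos_iff.2 h
  have : 0 < Real.log (r / ‖z‖) := Real.log_pos ((one_lt_div h0).2 hz)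
  have hpi := Real.pi_pos
  positivity

lemma Gr_mono {r r' : ℝ} (hr : 0 < r) (h : r ≤ r') (z : ℂ) : Gr r z ≤ Gr r' z := by
  unfold Gr
  have hpi := Real.pi_pos
  rcases eq_or_ne z 0 with h0 | h0
  · simp [h0]
  · have h1 : 0 < ‖z‖ := norm_pos_iff.2 h0
    have : Real.log (r / ‖z‖) ≤ Real.log (r' / ‖z‖) :=
      Real.log_le_log (by positivity) (by gcongr)
    gcongr

lemma measurable_Gr (r : ℝ) : Measurable (Gr r) := by
  unfold Gr
  exact (Real.measurable_log.comp (measurable_const.div measurable_norm)).const_mul _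

lemma continuousAt_Gr {r : ℝ} (hr : r ≠ 0) (z : ℂ) : ContinuousAt (fun r => Gr r z) r := by
  unfold Gr
  rcases eq_or_ne z 0 with h0 | h0
  · simp [h0, continuousAt_const]
  · have h1 : ‖z‖ ≠ 0 := norm_ne_zero_iff.2 h0
    refine continuousAt_const.mul (ContinuousAt.log (continuousAt_id.div_const _) ?_)
    exact div_ne_zero hr h1

lemma integrableOn_Gr_mul {r : ℝ} (hr : 0 < r) {F : ℂ → ℝ} (hF : ContinuousOn F (closedBall 0 r)) :
    IntegrableOn (fun z => Gr r z * F z) (ball (0 : ℂ) r) := by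
  obtain ⟨C, hC⟩ := (isCompact_closedBall (0 : ℂ) r).exists_bound_of_continuousOn hF
  refine Integrable.mul_bdd (c := C) (integrableOn_Gr hr) ?_ ?_
  · exact (hF.mono ball_subset_closedBall).aestronglyMeasurable measurableSet_ball
  · filter_upwards [ae_restrict_mem measurableSet_ball] with p hp
    exact hC p (ball_subset_closedBall hp)

end Vale.Agent.P272.GJ
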