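import Vale.Agent.P272.GJ.Closed
import Vale.Agent.P272.BR.Defs
import Vale.Agent.P268.Hol

/-!
# P272, block SV: the second variation on a complex manifold

`F : ℂ → ℂ → X` holomorphic in `(s, z)`, `w` Kähler: `Θ(s,z) = |∂_z F|²_w`, `Ξ(s,z) = |∂_s F|²_w` are
smooth and `∂_s ∂_s̄ Θ = ∂_z ∂_z̄ Ξ`.
-/

open MeasureTheory Set Metric Complex Filter
open scoped Manifold Real Topology ContDiff ComplexOrder

set_option linter.all false

noncomputable section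

namespace Vale.Agent.P272.GJ

open Vale.Agent.P272.K Vale.Agent.P272.BR

section
variable (n : ℕ) {X : Type*} [TopologicalSpace X] [ChartedSpace (Cm n) X]

/-- `F : ℂ → ℂ → X` is continuous and complex differentiable at `p` as a function of two
variables. -/
def HolAt2 (F : ℂ → ℂ → X) (p : ℂ × ℂ) : Prop :=
  ContinuousAt (fun q : ℂ × ℂ => F q.1 q.2) p ∧
    ∀ e : Chart n X, At e (F p.1 p.2) → DifferentiableAt ℂ (fun q : ℂ × ℂ => e (F q.1 q.2)) p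

end

section
variable {n : ℕ} {X : Type*} [TopologicalSpace X] [ChartedSpace (Cm n) X]
  {w : Chart n X → Cm n → Matrix (Fin n) (Fin n) ℂ} {F : ℂ → ℂ → X} {e : Chart n X} {s z : ℂ}

lemma HolAt2.snd (h : HolAt2 n F (s, z)) : HolAt n (F s) z := by
  have hd : DifferentiableAt ℂ (fun z : ℂ => (s, z)) z := by fun_prop
  refine ⟨?_, fun e he => ?_⟩
  · exact ContinuousAt.comp (g := fun q : ℂ × ℂ => F q.1 q.2) (f := fun z : ℂ => (s, z)) h.1
      hd.continuousAt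
  · exact DifferentiableAt.comp (g := fun q : ℂ × ℂ => e (F q.1 q.2)) (f := fun z : ℂ => (s, z)) z
      (h.2 e he) hd

lemma HolAt2.fst (h : HolAt2 n F (s, z)) : HolAt n (fun σ => F σ z) s := by
  have hd : DifferentiableAt ℂ (fun s : ℂ => (s, z)) s := by fun_prop
  refine ⟨?_, fun e he => ?_⟩
  · exact ContinuousAt.comp (g := fun q : ℂ × ℂ => F q.1 q.2) (f := fun s : ℂ => (s, z)) h.1
      hd.continuousAt
  · exact DifferentiableAt.comp (g := fun q : ℂ × ℂ => e (F q.1 q.2)) (f := fun s : ℂ => (s, z)) s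
      (h.2 e he) hd

lemma HolAt2.vel_snd (h : HolAt2 n F (s, z)) (he : At e (F s z)) :
    vel (F s) e z = fderiv ℂ (fun q : ℂ × ℂ => e (F q.1 q.2)) (s, z) (0, 1) := by
  have hd : HasDerivAt (fun z : ℂ => (s, z)) ((0, 1) : ℂ × ℂ) z :=
    (hasDerivAt_const z s).prodMk (hasDerivAt_id z)
  have h1 : HasDerivAt (fun ζ => e (F s ζ))
      (fderiv ℂ (fun q : ℂ × ℂ => e (F q.1 q.2)) (s, z) (0, 1)) z :=
    HasFDerivAt.comp_hasDerivAt (l := fun q : ℂ × ℂ => e (F q.1 q.2)) (f := fun z : ℂ => (s, z)) z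
      (h.2 e he).hasFDerivAt hd
  exact h1.deriv

lemma HolAt2.vel_fst (h : HolAt2 n F (s, z)) (he : At e (F s z)) :
    vel (fun σ => F σ z) e s = fderiv ℂ (fun q : ℂ × ℂ => e (F q.1 q.2)) (s, z) (1, 0) := by
  have hd : HasDerivAt (fun s : ℂ => (s, z)) ((1, 0) : ℂ × ℂ) s :=
    (hasDerivAt_id s).prodMk (hasDerivAt_const s z)
  have h1 : HasDerivAt (fun ζ => e (F ζ z))
      (fderiv ℂ (fun q : ℂ × ℂ => e (F q.1 q.2)) (s, z) (1, 0)) s :=
    HasFDerivAt.comp_hasDerivAt (l := fun q : ℂ × ℂ => e (F q.1 q.2)) (f := fun s : ℂ => (s, z)) s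
      (h.2 e he).hasFDerivAt hd
  exact h1.deriv

variable [IsManifold 𝓘(ℂ, Cm n) ω X]

/-- the function in a chart is analytic -/
lemma chart_analytic {p : ℂ × ℂ} (h : ∀ᶠ q in 𝓝 p, HolAt2 n F q) (he : At e (F p.1 p.2)) :
    ContDiffAt ℂ ω (fun q : ℂ × ℂ => e (F q.1 q.2)) p := by
  have h1 : ∀ᶠ q in 𝓝 p, DifferentiableAt ℂ (fun q : ℂ × ℂ => e (F q.1 q.2)) q := by
    filter_upwards [h, h.self_of_nhds.1.eventually (e.open_source.mem_nhds he.2)] with q h1 h2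
    exact h1.2 e ⟨he.1, h2⟩
  obtain ⟨U, hU, hUo, hp⟩ := _root_.eventually_nhds_iff.1 h1
  exact (Vale.Agent.P268.analyticAt_of_differentiableOn hUo
    (fun q hq => (hU q hq).differentiableWithinAt) hp).contDiffAt

lemma quad_real {M : Matrix (Fin n) (Fin n) ℂ} (hM : M.IsHermitian) (ξ : Cm n) :
    (((quad M ξ).re : ℝ) : ℂ) = quad M ξ := by
  apply Complex.ext
  · simp
  · simp [quad_im hM ξ]

/-- the speed squared of the slices as a pull-back -/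
lemma spd_snd_eventually (hw : IsHermitian w) {p : ℂ × ℂ} (h : ∀ᶠ q in 𝓝 p, HolAt2 n F q)
    (he : At e (F p.1 p.2)) :
    (fun q : ℂ × ℂ => ((spd w (F q.1) q.2 : ℝ) : ℂ)) =ᶠ[𝓝 p]
      pull (w e) (fun q : ℂ × ℂ => e (F q.1 q.2)) (0, 1) (0, 1) := by
  filter_upwards [h, h.self_of_nhds.1.eventually (e.open_source.mem_nhds he.2)] with q h1 h2
  have hq : At e (F q.1 q.2) := ⟨he.1, h2⟩
  rw [spd_eq hw (HolAt2.snd (s := q.1) (z := q.2) h1) hq, quad_real (hw.posDef e _ hq).1,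
    HolAt2.vel_snd (s := q.1) (z := q.2) h1 hq]
  rfl

lemma spd_fst_eventually (hw : IsHermitian w) {p : ℂ × ℂ} (h : ∀ᶠ q in 𝓝 p, HolAt2 n F q)
    (he : At e (F p.1 p.2)) :
    (fun q : ℂ × ℂ => ((spd w (fun σ => F σ q.2) q.1 : ℝ) : ℂ)) =ᶠ[𝓝 p]
      pull (w e) (fun q : ℂ × ℂ => e (F q.1 q.2)) (1, 0) (1, 0) := by
  filter_upwards [h, h.self_of_nhds.1.eventually (e.open_source.mem_nhds he.2)] with q h1 h2
  have hq : At e (F q.1 q.2) := ⟨he.1, h2⟩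
  rw [spd_eq hw (HolAt2.fst (s := q.1) (z := q.2) h1) hq, quad_real (hw.posDef e _ hq).1,
    HolAt2.vel_fst (s := q.1) (z := q.2) h1 hq]
  rfl

lemma nhds_chart {P : Cm n → Prop} (he : At e (F s z)) (hP : ∀ x, At e x → P (e x)) :
    ∀ᶠ y in 𝓝 (e (F s z)), P y := by
  filter_upwards [he.nhds_target] with y hy
  have := hP (e.symm y) (At.of_target he.1 hy)
  rwa [e.right_inv hy] at this

lemma pull_smooth (hw : IsHermitian w) {p : ℂ × ℂ} (h : ∀ᶠ q in 𝓝 p, HolAt2 n F q)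
    (he : At e (F p.1 p.2)) (u v : ℂ × ℂ) :
    ContDiffAt ℝ ∞ (pull (w e) (fun q : ℂ × ℂ => e (F q.1 q.2)) u v) p :=
  contDiffAt_pull (chart_analytic h he) (fun i j => hw.smooth e _ he i j) u v

lemma two_le_infty : (2 : WithTop ℕ∞) ≤ ∞ := WithTop.coe_le_coe.2 le_top

/-- `|∂_z F|²` is smooth in `(s, z)` -/
theorem contDiffAt_spd_snd (hw : IsHermitian w) {p : ℂ × ℂ} (h : ∀ᶠ q in 𝓝 p, HolAt2 n F q) :
    ContDiffAt ℝ ∞ (fun q : ℂ × ℂ => spd w (F q.1) q.2) p := by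
  have he := at_chartAt (n := n) (F p.1 p.2)
  have h1 : ContDiffAt ℝ ∞ (fun q : ℂ × ℂ => ((spd w (F q.1) q.2 : ℝ) : ℂ)) p :=
    (pull_smooth hw h he _ _).congr_of_eventuallyEq (spd_snd_eventually hw h he)
  have h2 := reCLM.contDiff.contDiffAt.comp p h1
  exact h2

/-- `|∂_s F|²` is smooth in `(s, z)` -/
theorem contDiffAt_spd_fst (hw : IsHermitian w) {p : ℂ × ℂ} (h : ∀ᶠ q in 𝓝 p, HolAt2 n F q) :
    ContDiffAt ℝ ∞ (fun q : ℂ × ℂ => spd w (fun σ => F σ q.2) q.1) p := by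
  have he := at_chartAt (n := n) (F p.1 p.2)
  have h1 : ContDiffAt ℝ ∞ (fun q : ℂ × ℂ => ((spd w (fun σ => F σ q.2) q.1 : ℝ) : ℂ)) p :=
    (pull_smooth hw h he _ _).congr_of_eventuallyEq (spd_fst_eventually hw h he)
  have h2 := reCLM.contDiff.contDiffAt.comp p h1
  exact h2

/-- **`∂_s ∂_s̄ |∂_z F|²_w = ∂_z ∂_z̄ |∂_s F|²_w`** for a Kähler metric `w`. -/
theorem spd_identity (hw : IsKahler w) (h : ∀ᶠ q in 𝓝 ((s, z) : ℂ × ℂ), HolAt2 n F q) :
    ddb (fun s => spd w (F s) z) s = ddb (fun z => spd w (fun σ => F σ z) s) z := by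
  have hwH := hw.toIsHermitian
  have he := at_chartAt (n := n) (F s z)
  set e : Chart n X := chartAt (Cm n) (F s z) with hedef
  have c1 : ContDiffAt ℝ 2 (fun q : ℂ × ℂ => spd w (F q.1) q.2) (s, z) :=
    (contDiffAt_spd_snd hwH h).of_le two_le_infty
  have c2 : ContDiffAt ℝ 2 (fun q : ℂ × ℂ => spd w (fun σ => F σ q.2) q.1) (s, z) :=
    (contDiffAt_spd_fst hwH h).of_le two_le_infty
  have f1 := ddb_fst (Θ := fun s z => spd w (F s) z) c1
  have f2 := ddb_snd (Θ := fun s z => spd w (fun σ => F σ z) s) c2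
  rw [f1, f2]
  have key := pull_identity (w := w e) (f := fun q : ℂ × ℂ => e (F q.1 q.2)) (p := (s, z))
    (chart_analytic h he)
    (nhds_chart (P := fun y => ∀ i j, ContDiffAt ℝ ∞ (fun y => w e y i j) y) he
      fun x hx i j => hwH.smooth e x hx i j)
    (nhds_chart (P := fun y => (w e y).IsHermitian) he fun x hx => (hwH.posDef e x hx).1)
    (nhds_chart (P := fun y => ∀ i j k, dz k (fun z => w e z i j) y =
      dz i (fun z => w e z k j) y) he fun x hx => hw.closed e x hx) (1, 0) (0, 1)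
  have k1 : ∀ᶠ q in 𝓝 ((s, z) : ℂ × ℂ), pull (w e) (fun q : ℂ × ℂ => e (F q.1 q.2)) (0, 1) (0, 1) q =
      ((spd w (F q.1) q.2 : ℝ) : ℂ) := (spd_snd_eventually hwH h he).symm
  have k2 : ∀ᶠ q in 𝓝 ((s, z) : ℂ × ℂ), pull (w e) (fun q : ℂ × ℂ => e (F q.1 q.2)) (1, 0) (1, 0) q =
      ((spd w (fun σ => F σ q.2) q.1 : ℝ) : ℂ) := (spd_fst_eventually hwH h he).symm
  have m1 : D1 (1, 0) (pull (w e) (fun q : ℂ × ℂ => e (F q.1 q.2)) (0, 1) (0, 1)) =ᶠ[𝓝 (s, z)]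
      D1 (1, 0) fun q : ℂ × ℂ => ((spd w (F q.1) q.2 : ℝ) : ℂ) := by
    filter_upwards [k1.eventually_nhds] with q hq
    exact D1_congr hq
  have m2 : D1 (0, 1) (pull (w e) (fun q : ℂ × ℂ => e (F q.1 q.2)) (1, 0) (1, 0)) =ᶠ[𝓝 (s, z)]
      D1 (0, 1) fun q : ℂ × ℂ => ((spd w (fun σ => F σ q.2) q.1 : ℝ) : ℂ) := by
    filter_upwards [k2.eventually_nhds] with q hq
    exact D1_congr hq
  have C1 : ContDiffAt ℝ 2 (fun q : ℂ × ℂ => ((spd w (F q.1) q.2 : ℝ) : ℂ)) (s, z) :=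
    ofRealCLM.contDiff.contDiffAt.comp (s, z) c1
  have C2 : ContDiffAt ℝ 2 (fun q : ℂ × ℂ => ((spd w (fun σ => F σ q.2) q.1 : ℝ) : ℂ)) (s, z) :=
    ofRealCLM.contDiff.contDiffAt.comp (s, z) c2
  rw [D2_congr m1, D2_congr m2, D2_D1_self C1, D2_D1_self C2, fderiv2_ofReal c1, fderiv2_ofReal c1,
    fderiv2_ofReal c2, fderiv2_ofReal c2] at key
  have i1 : I • ((1, 0) : ℂ × ℂ) = (I, 0) := by simp
  have i2 : I • ((0, 1) : ℂ × ℂ) = (0, I) := by simp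
  rw [i1, i2] at key
  exact_mod_cast key

end

end Vale.Agent.P272.GJ
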