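import Vale.Agent.P272.GJ.Mfd

/-!
# P272, step (5) complete: the inequality (*)
-/

open MeasureTheory Set Metric Complex Filter
open scoped Manifold Real Topology ContDiff ComplexOrder ENNReal

set_option linter.all false

noncomputable section

namespace Vale.Agent.P272.GJ

open Vale.Agent.P272.K Vale.Agent.P272.BR

lemma contOn_Tr {H : ℂ → ℂ → ℝ} {ε0 r : ℝ} (hr : 0 < r)
    (hH : ContinuousOn (fun p : ℂ × ℂ => H p.1 p.2) (ball 0 ε0 ×ˢ closedBall 0 r)) :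
    ContinuousOn (fun s => ∫ z in ball (0 : ℂ) r, Gr r z * H s z) (ball 0 ε0) := by
  intro s0 hs0
  have hs0' : ‖s0‖ < ε0 := by simpa using hs0
  obtain ⟨ε1, h1, h2⟩ := exists_between hs0'
  have hsub : closedBall (0 : ℂ) ε1 ⊆ ball 0 ε0 := closedBall_subset_ball h2
  obtain ⟨C, hC⟩ := ((isCompact_closedBall (0 : ℂ) ε1).prod
    (isCompact_closedBall (0 : ℂ) r)).exists_bound_of_continuousOn
    (hH.mono (prod_mono hsub le_rfl))
  have hnb : ∀ᶠ s in 𝓝 s0, s ∈ closedBall (0 : ℂ) ε1 := by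
    filter_upwards [isOpen_ball.mem_nhds (show s0 ∈ ball (0 : ℂ) ε1 by simpa using h1)] with s hs
    exact ball_subset_closedBall hs
  refine ContinuousAt.continuousWithinAt ?_
  refine continuousAt_of_dominated (bound := fun z => Gr r z * C) ?_ ?_ ?_ ?_
  · filter_upwards [hnb] with s hs
    refine ((measurable_Gr r).aestronglyMeasurable).mul ?_
    have : ContinuousOn (fun z => H s z) (closedBall 0 r) :=
      hH.comp (f := fun z : ℂ => (s, z)) (by fun_prop) fun z hz => ⟨hsub hs, hz⟩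
    exact (this.mono ball_subset_closedBall).aestronglyMeasurable measurableSet_ball
  · filter_upwards [hnb] with s hs
    filter_upwards [ae_restrict_mem measurableSet_ball] with z hz
    rw [norm_mul, Real.norm_of_nonneg (Gr_nonneg hz)]
    exact mul_le_mul_of_nonneg_left (hC (s, z) ⟨hs, ball_subset_closedBall hz⟩) (Gr_nonneg hz)
  · exact (integrableOn_Gr hr).mul_const C
  · filter_upwards [ae_restrict_mem measurableSet_ball] with z hz
    refine continuousAt_const.mul ?_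
    have : ContinuousOn (fun s => H s z) (ball 0 ε0) :=
      hH.comp (f := fun s : ℂ => (s, z)) (by fun_prop) fun s hs => ⟨hs, ball_subset_closedBall hz⟩
    exact this.continuousAt (isOpen_ball.mem_nhds hs0)

section
variable {n : ℕ} {X : Type*} [TopologicalSpace X] [ChartedSpace (Cm n) X]
  {w w' : Chart n X → Cm n → Matrix (Fin n) (Fin n) ℂ} {F : ℂ → ℂ → X} {e : Chart n X} {s z : ℂ}

lemma HolAt2.at_snd (h : HolAt2 n F (s, z)) (he : At e (F s z)) :
    ∀ᶠ ζ in 𝓝 z, At e (F s ζ) := HolAt.eventually_at h.snd.1 he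

lemma HolAt2.at_fst (h : HolAt2 n F (s, z)) (he : At e (F s z)) :
    ∀ᶠ σ in 𝓝 s, At e (F σ z) := HolAt.eventually_at (f := fun σ => F σ z) h.fst.1 he

lemma eventually_fst {P : ℂ × ℂ → Prop} (h : ∀ᶠ q in 𝓝 ((s, z) : ℂ × ℂ), P q) :
    ∀ᶠ σ in 𝓝 s, P (σ, z) := by
  have hc : ContinuousAt (fun σ : ℂ => (σ, z)) s := by fun_prop
  exact hc.eventually h

lemma eventually_snd {P : ℂ × ℂ → Prop} (h : ∀ᶠ q in 𝓝 ((s, z) : ℂ × ℂ), P q) :
    ∀ᶠ ζ in 𝓝 z, P (s, ζ) := by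
  have hc : ContinuousAt (fun ζ : ℂ => (s, ζ)) z := by fun_prop
  exact hc.eventually h

variable [IsManifold 𝓘(ℂ, Cm n) ω X]

/-- `s ↦ ∂_z F(s,z)` in a chart is holomorphic with derivative `∂_s ∂_z F` -/
lemma hasDerivAt_vel_snd (h : ∀ᶠ q in 𝓝 ((s, z) : ℂ × ℂ), HolAt2 n F q) (he : At e (F s z)) :
    HasDerivAt (fun σ => vel (F σ) e z)
      (fderiv ℂ (fderiv ℂ fun q : ℂ × ℂ => e (F q.1 q.2)) (s, z) (1, 0) (0, 1)) s := by
  have hf := chart_analytic (p := (s, z)) h he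
  have hd : DifferentiableAt ℂ (fderiv ℂ fun q : ℂ × ℂ => e (F q.1 q.2)) (s, z) :=
    (hf.fderiv_right (m := ω) (by exact le_top)).differentiableAt (by simp)
  have h1 : HasDerivAt (fun σ : ℂ => ((σ, z) : ℂ × ℂ)) (1, 0) s :=
    (hasDerivAt_id s).prodMk (hasDerivAt_const s z)
  have h2 : HasDerivAt (fun σ : ℂ => fderiv ℂ (fun q : ℂ × ℂ => e (F q.1 q.2)) (σ, z))
      (fderiv ℂ (fderiv ℂ fun q : ℂ × ℂ => e (F q.1 q.2)) (s, z) (1, 0)) s :=
    HasFDerivAt.comp_hasDerivAt (l := fderiv ℂ fun q : ℂ × ℂ => e (F q.1 q.2))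
      (f := fun σ : ℂ => (σ, z)) s hd.hasFDerivAt h1
  have h3 : HasDerivAt (fun σ : ℂ => fderiv ℂ (fun q : ℂ × ℂ => e (F q.1 q.2)) (σ, z) (0, 1))
      (fderiv ℂ (fderiv ℂ fun q : ℂ × ℂ => e (F q.1 q.2)) (s, z) (1, 0) (0, 1)) s := by
    simpa using h2.clm_apply (hasDerivAt_const s ((0, 1) : ℂ × ℂ))
  refine h3.congr_of_eventuallyEq ?_
  filter_upwards [eventually_fst h, h.self_of_nhds.at_fst he] with σ h4 h5
  exact h4.vel_snd h5

/-- `z ↦ ∂_s F(s,z)` in a chart is holomorphic with derivative `∂_z ∂_s F` -/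
lemma hasDerivAt_vel_fst (h : ∀ᶠ q in 𝓝 ((s, z) : ℂ × ℂ), HolAt2 n F q) (he : At e (F s z)) :
    HasDerivAt (fun ζ => vel (fun σ => F σ ζ) e s)
      (fderiv ℂ (fderiv ℂ fun q : ℂ × ℂ => e (F q.1 q.2)) (s, z) (0, 1) (1, 0)) z := by
  have hf := chart_analytic (p := (s, z)) h he
  have hd : DifferentiableAt ℂ (fderiv ℂ fun q : ℂ × ℂ => e (F q.1 q.2)) (s, z) :=
    (hf.fderiv_right (m := ω) (by exact le_top)).differentiableAt (by simp)
  have h1 : HasDerivAt (fun ζ : ℂ => ((s, ζ) : ℂ × ℂ)) (0, 1) z :=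
    (hasDerivAt_const z s).prodMk (hasDerivAt_id z)
  have h2 : HasDerivAt (fun ζ : ℂ => fderiv ℂ (fun q : ℂ × ℂ => e (F q.1 q.2)) (s, ζ))
      (fderiv ℂ (fderiv ℂ fun q : ℂ × ℂ => e (F q.1 q.2)) (s, z) (0, 1)) z :=
    HasFDerivAt.comp_hasDerivAt (l := fderiv ℂ fun q : ℂ × ℂ => e (F q.1 q.2))
      (f := fun ζ : ℂ => (s, ζ)) z hd.hasFDerivAt h1
  have h3 : HasDerivAt (fun ζ : ℂ => fderiv ℂ (fun q : ℂ × ℂ => e (F q.1 q.2)) (s, ζ) (1, 0))
      (fderiv ℂ (fderiv ℂ fun q : ℂ × ℂ => e (F q.1 q.2)) (s, z) (0, 1) (1, 0)) z := by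
    simpa using h2.clm_apply (hasDerivAt_const z ((1, 0) : ℂ × ℂ))
  refine h3.congr_of_eventuallyEq ?_
  filter_upwards [eventually_snd h, h.self_of_nhds.at_snd he] with ζ h4 h5
  exact h4.vel_fst h5

/-- symmetry of the mixed derivative -/
theorem deriv_vel_symm (h : ∀ᶠ q in 𝓝 ((s, z) : ℂ × ℂ), HolAt2 n F q) (he : At e (F s z)) :
    deriv (fun σ => vel (F σ) e z) s = deriv (fun ζ => vel (fun σ => F σ ζ) e s) z := by
  rw [(hasDerivAt_vel_snd h he).deriv, (hasDerivAt_vel_fst h he).deriv]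
  have hf := chart_analytic (p := (s, z)) h he
  exact (hf.isSymmSndFDerivAt (by simp)) _ _

lemma ev_of_prod {ε0 R : ℝ} {P : ℂ × ℂ → Prop}
    (hF : ∀ s ∈ ball (0 : ℂ) ε0, ∀ z ∈ ball (0 : ℂ) R, P (s, z)) {s z : ℂ}
    (hs : s ∈ ball (0 : ℂ) ε0) (hz : z ∈ ball (0 : ℂ) R) : ∀ᶠ q in 𝓝 ((s, z) : ℂ × ℂ), P q := by
  filter_upwards [(isOpen_ball.prod isOpen_ball).mem_nhds
    (show ((s, z) : ℂ × ℂ) ∈ ball (0 : ℂ) ε0 ×ˢ ball (0 : ℂ) R from ⟨hs, hz⟩)] with q hq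
  exact hF q.1 hq.1 q.2 hq.2

/-- `∂_s F(s,0) = 0` if `F(s,0)` is constant -/
lemma spd_fst_zero {ε0 : ℝ} {x0 : X} (hx0 : ∀ s ∈ ball (0 : ℂ) ε0, F s 0 = x0)
    (hs : s ∈ ball (0 : ℂ) ε0) (w : Chart n X → Cm n → Matrix (Fin n) (Fin n) ℂ) :
    spd w (fun σ => F σ 0) s = 0 := by
  have h1 : (fun σ => F σ 0) =ᶠ[𝓝 s] fun _ => x0 := by
    filter_upwards [isOpen_ball.mem_nhds hs] with σ hσ using hx0 σ hσ
  rw [spd_congr h1]
  unfold spd vel quad
  simp

/-- **The inequality (*)** of step (5), with the extra term `mu T^(r)_w` of Stage 2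
(`mu = 0`: Theorem 1). -/
theorem star_inequality (hw : IsKahler w) (hw' : IsKahler w') {ε0 : ℝ} (hε0 : 0 < ε0)
    (hF : ∀ s ∈ ball (0 : ℂ) ε0, ∀ z ∈ ball (0 : ℂ) 1, HolAt2 n F (s, z))
    {x0 : X} (hx0 : ∀ s ∈ ball (0 : ℂ) ε0, F s 0 = x0)
    (hcont : ContinuousOn (fun p : ℂ × ℂ => spd w' (fun σ => F σ p.2) p.1)
      (ball 0 ε0 ×ˢ closedBall 0 1))
    (he : At e x0) {mu r lam : ℝ} (hmu : 0 ≤ mu) (hr : r ∈ Ioo (0 : ℝ) 1) (hlam : 0 ≤ lam)
    (hT : TT (spd w' (F 0)) ≠ ⊤)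
    (hmax : ∀ s ∈ ball (0 : ℂ) ε0, TT (spd w' (F s)) ≠ ⊤ →
      (spd w (F s) 0 + mu * ∫ z in ball (0 : ℂ) r, Gr r z * spd w (F s) z) +
          lam * (TT (spd w' (F 0))).toReal ≤
        (spd w (F 0) 0 + mu * ∫ z in ball (0 : ℂ) r, Gr r z * spd w (F 0) z) +
          lam * (TT (spd w' (F s))).toReal) :
    (quad (w e (e x0)) (deriv (fun s => vel (F s) e 0) 0)).re ≤
      lam * Real.circleAverage (fun z => spd w' (fun σ => F σ z) 0) 0 1 := by
  have hwH := hw.toIsHermitian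
  have hwH' := hw'.toIsHermitian
  have h01 : (0 : ℂ) ∈ ball (0 : ℂ) 1 := mem_ball_self one_pos
  have h00 : (0 : ℂ) ∈ ball (0 : ℂ) ε0 := mem_ball_self hε0
  have hev : ∀ s ∈ ball (0 : ℂ) ε0, ∀ z ∈ ball (0 : ℂ) 1,
      ∀ᶠ q in 𝓝 ((s, z) : ℂ × ℂ), HolAt2 n F q := fun s hs z hz => ev_of_prod hF hs hz
  have hrsub : closedBall (0 : ℂ) r ⊆ ball 0 1 := closedBall_subset_ball hr.2
  -- smoothness of the two densities of `w`
  have cΘ : ∀ s ∈ ball (0 : ℂ) ε0, ∀ z ∈ ball (0 : ℂ) 1,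
      ContDiffAt ℝ 2 (fun p : ℂ × ℂ => spd w (F p.1) p.2) (s, z) := fun s hs z hz =>
    (contDiffAt_spd_snd hwH (hev s hs z hz)).of_le two_le_infty
  have cΞ : ∀ s ∈ ball (0 : ℂ) ε0, ∀ z ∈ ball (0 : ℂ) 1,
      ContDiffAt ℝ 2 (fun p : ℂ × ℂ => spd w (fun σ => F σ p.2) p.1) (s, z) := fun s hs z hz =>
    (contDiffAt_spd_fst hwH (hev s hs z hz)).of_le two_le_infty
  set B1 : ℂ → ℝ := fun s => spd w (F s) 0 with hB1
  set B2 : ℂ → ℝ := fun s => ∫ z in ball (0 : ℂ) r, Gr r z * spd w (F s) z with hB2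
  have cB1 : ContinuousOn B1 (ball 0 ε0) := fun s hs =>
    (contDiffAt_fst (Θ := fun s z => spd w (F s) z)
      (cΘ s hs 0 h01)).continuousAt.continuousWithinAt
  have cB2 : ContinuousOn B2 (ball 0 ε0) := by
    refine contOn_Tr (H := fun s z => spd w (F s) z) hr.1 fun p hp => ?_
    exact (cΘ p.1 hp.1 p.2 (hrsub hp.2)).continuousAt.continuousWithinAt
  -- the holomorphic velocity at `0`
  have hat : ∀ s ∈ ball (0 : ℂ) ε0, At e (F s 0) := fun s hs => by rw [hx0 s hs]; exact he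
  have ha : DifferentiableOn ℂ (fun s => vel (F s) e 0) (ball 0 ε0) := fun s hs =>
    (hasDerivAt_vel_snd (hev s hs 0 h01) (hat s hs)).differentiableAt.differentiableWithinAt
  have hB1eq : ∀ s ∈ ball (0 : ℂ) ε0, B1 s = (quad (w e (e x0)) (vel (F s) e 0)).re := by
    intro s hs
    simp only [hB1]
    rw [spd_eq hwH (HolAt2.snd (hF s hs 0 h01)) (hat s hs), hx0 s hs]
  have hQ : (w e (e x0)).PosSemidef := (hwH.posDef e x0 he).posSemidef
  refine second_variation (Θ := fun s z => spd w' (F s) z)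
    (Ξ := fun s z => spd w' (fun σ => F σ z) s) hε0
    (fun s hs z hz => (contDiffAt_spd_snd hwH' (hev s hs z hz)).of_le two_le_infty)
    (fun s hs z hz => (contDiffAt_spd_fst hwH' (hev s hs z hz)).of_le two_le_infty)
    (fun s hs z hz => spd_identity hw' (hev s hs z hz))
    (fun s hs z hz => spd_nonneg hwH' _ _) (fun s hs => spd_nonneg hwH' _ _) hcont
    (B := fun s => B1 s + mu * B2 s) (cB1.add (continuousOn_const.mul cB2)) ?_ hlam hT hmax
  intro ε hε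
  have hsp : sphere (0 : ℂ) |ε| ⊆ ball 0 ε0 := by
    rw [abs_of_pos hε.1]; exact sphere_subset_closedBall.trans (closedBall_subset_ball hε.2)
  have hcs : closedBall (0 : ℂ) ε ⊆ ball 0 ε0 := closedBall_subset_ball hε.2
  have i1 : CircleIntegrable B1 0 ε := ContinuousOn.circleIntegrable' (cB1.mono hsp)
  have i2 : CircleIntegrable (fun s => mu * B2 s) 0 ε :=
    ContinuousOn.circleIntegrable' (continuousOn_const.mul (cB2.mono hsp))
  rw [Real.circleAverage_fun_add i1 i2]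
  have a1 : B1 0 + ε ^ 2 * (quad (w e (e x0)) (deriv (fun s => vel (F s) e 0) 0)).re ≤
      Real.circleAverage B1 0 ε := by
    have h1 := quad_avg hQ ha hε
    rw [hB1eq 0 h00]
    refine h1.trans (le_of_eq ?_)
    refine Real.circleAverage_congr_sphere fun s hs => ?_
    exact (hB1eq s (hsp hs)).symm
  have a2 : B2 0 ≤ Real.circleAverage B2 0 ε := by
    have h1 := second_integrated (Θ := fun s z => spd w (F s) z)
      (Ξ := fun s z => spd w (fun σ => F σ z) s) hε.1 hr.1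
      (fun s hs z hz => cΘ s (hcs hs) z (hrsub hz)) (fun s hs z hz => cΞ s (hcs hs) z (hrsub hz))
      (fun s hs z hz => spd_identity hw (hev s (hcs (ball_subset_closedBall hs)) z
        (hrsub (ball_subset_closedBall hz))))
    have h2 : 0 ≤ ∫ s in ball (0 : ℂ) ε, Gr ε s *
        (Real.circleAverage (fun z => spd w (fun σ => F σ z) s) 0 r -
          spd w (fun σ => F σ 0) s) := by
      refine setIntegral_nonneg measurableSet_ball fun s hs => ?_
      refine mul_nonneg (Gr_nonneg hs) ?_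
      rw [spd_fst_zero hx0 (hcs (ball_subset_closedBall hs)), sub_zero]
      exact Real.circleAverage_nonneg_of_nonneg fun z _ => spd_nonneg hwH _ _
    simp only [hB2]
    linarith
  have a3 : Real.circleAverage (fun s => mu * B2 s) 0 ε = mu * Real.circleAverage B2 0 ε := by
    have := Real.circleAverage_fun_smul (𝕜 := ℝ) (a := mu) (f := B2) (c := 0) (R := ε)
    simpa only [smul_eq_mul] using this
  rw [a3]
  have a4 := mul_le_mul_of_nonneg_left a2 hmu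
  linarith

end

end Vale.Agent.P272.GJ
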