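import Vale.Agent.P272.K.Inv.Compact
import Mathlib.Analysis.Complex.MeanValue
import Mathlib.Analysis.Complex.RemovableSingularity
import Mathlib.MeasureTheory.Integral.CircleAverage

/-!
# P272, block SV: circle averages of Hermitian squares of holomorphic vector functions
-/

open MeasureTheory Set Metric Complex Filter
open scoped Real Topology ComplexOrder

noncomputable section

namespace Vale.Agent.P272.GJ

open Vale.Agent.P272.K

variable {n : ℕ}

/-- the sesquilinear form `Σ Q_ij x_i conj(y_j)` -/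
def ses (Q : Matrix (Fin n) (Fin n) ℂ) (x y : Cm n) : ℂ := ∑ i, ∑ j, Q i j * (x i * cj (y j))

lemma quad_eq_ses (Q : Matrix (Fin n) (Fin n) ℂ) (x : Cm n) : quad Q x = ses Q x x := rfl

lemma ses_add_left (Q : Matrix (Fin n) (Fin n) ℂ) (x x' y : Cm n) :
    ses Q (x + x') y = ses Q x y + ses Q x' y := by
  simp only [ses, Pi.add_apply, add_mul, mul_add, Finset.sum_add_distrib]

lemma ses_add_right (Q : Matrix (Fin n) (Fin n) ℂ) (x y y' : Cm n) :
    ses Q x (y + y') = ses Q x y + ses Q x y' := by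
  simp only [ses, Pi.add_apply, cj, map_add, mul_add, Finset.sum_add_distrib]

lemma ses_smul_left (Q : Matrix (Fin n) (Fin n) ℂ) (c : ℂ) (x y : Cm n) :
    ses Q (c • x) y = c * ses Q x y := by
  simp only [ses, Pi.smul_apply, smul_eq_mul, Finset.mul_sum]
  refine Finset.sum_congr rfl fun i _ => Finset.sum_congr rfl fun j _ => ?_
  ring

lemma ses_smul_right (Q : Matrix (Fin n) (Fin n) ℂ) (c : ℂ) (x y : Cm n) :
    ses Q x (c • y) = cj c * ses Q x y := by
  simp only [ses, Pi.smul_apply, smul_eq_mul, Finset.mul_sum, cj, map_mul]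
  refine Finset.sum_congr rfl fun i _ => Finset.sum_congr rfl fun j _ => ?_
  ring

lemma ses_neg_left (Q : Matrix (Fin n) (Fin n) ℂ) (x y : Cm n) :
    ses Q (-x) y = -ses Q x y := by
  have := ses_smul_left Q (-1) x y
  simpa using this

lemma ses_neg_right (Q : Matrix (Fin n) (Fin n) ℂ) (x y : Cm n) :
    ses Q x (-y) = -ses Q x y := by
  have := ses_smul_right Q (-1) x y
  simpa [cj] using this

lemma ses_symm {Q : Matrix (Fin n) (Fin n) ℂ} (hQ : Q.IsHermitian) (x y : Cm n) :
    ses Q y x = cj (ses Q x y) := by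
  simp only [ses, cj, map_sum, map_mul, conj_conj]
  rw [Finset.sum_comm]
  refine Finset.sum_congr rfl fun i _ => Finset.sum_congr rfl fun j _ => ?_
  have h : (starRingEnd ℂ) (Q i j) = Q j i := hQ.apply j i
  rw [h]
  ring

lemma quad_nonneg' {Q : Matrix (Fin n) (Fin n) ℂ} (hQ : Q.PosSemidef) (x : Cm n) :
    0 ≤ (quad Q x).re := by
  rw [quad_eq]
  exact hQ.re_dotProduct_nonneg _

/-- `|x|² ≥ 2 Re⟨x,y⟩ - |y|²` -/
lemma quad_ge {Q : Matrix (Fin n) (Fin n) ℂ} (hQ : Q.PosSemidef) (x y : Cm n) :
    2 * (ses Q x y).re - (quad Q y).re ≤ (quad Q x).re := by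
  have h := quad_nonneg' hQ (x + -y)
  rw [quad_eq_ses, ses_add_left, ses_add_right, ses_add_right, ses_neg_left, ses_neg_right,
    ses_neg_left, ses_neg_right, ses_symm hQ.1 x y] at h
  simp only [add_re, neg_re, neg_neg, cj, conj_re] at h
  rw [quad_eq_ses, quad_eq_ses]
  linarith

/-- `x ↦ Σ Q_ij x_i conj(y_j)` as a continuous linear map -/
def sesL (Q : Matrix (Fin n) (Fin n) ℂ) (y : Cm n) : Cm n →L[ℂ] ℂ :=
  ∑ i, (∑ j, Q i j * cj (y j)) • ContinuousLinearMap.proj i

lemma sesL_apply (Q : Matrix (Fin n) (Fin n) ℂ) (x y : Cm n) : sesL Q y x = ses Q x y := by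
  simp only [sesL, ses, sum_apply, smul_apply,
    ContinuousLinearMap.proj_apply, smul_eq_mul, Finset.sum_mul]
  refine Finset.sum_congr rfl fun i _ => Finset.sum_congr rfl fun j _ => ?_
  ring

/-! ### circle averages of holomorphic functions -/

section
variable {ε0 ε : ℝ} {g : ℂ → ℂ}

lemma circleAverage_hol (hg : DifferentiableOn ℂ g (ball 0 ε0)) (hε : ε ∈ Ioo 0 ε0) :
    Real.circleAverage g 0 ε = g 0 := by
  refine DiffContOnCl.circleAverage ?_
  rw [abs_of_pos hε.1]
  refine DifferentiableOn.diffContOnCl (hg.mono ?_)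
  rw [closure_ball _ hε.1.ne']
  exact closedBall_subset_ball hε.2

lemma circleAverage_conj_id (hε : 0 < ε) : Real.circleAverage (fun s : ℂ => cj s) 0 ε = 0 := by
  have h1 : Real.circleAverage (fun s : ℂ => s) 0 ε = 0 :=
    circleAverage_hol (ε0 := ε + 1) (g := fun s => s) differentiableOn_id ⟨hε, by linarith⟩
  have h2 := ContinuousLinearMap.circleAverage_comp_comm (conjCLE : ℂ →L[ℝ] ℂ)
    (f := fun s : ℂ => s) (c := 0) (R := ε)
    (ContinuousOn.circleIntegrable hε.le continuousOn_id)
  rw [h1, map_zero] at h2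
  exact h2

/-- `avg conj(s) g(s) = ε² g'(0)` -/
lemma circleAverage_conj_mul (hg : DifferentiableOn ℂ g (ball 0 ε0)) (hε : ε ∈ Ioo 0 ε0) :
    Real.circleAverage (fun s => cj s * g s) 0 ε = ε ^ 2 * deriv g 0 := by
  have hε0 : 0 < ε0 := hε.1.trans hε.2
  have h0 : ball (0 : ℂ) ε0 ∈ 𝓝 (0 : ℂ) := ball_mem_nhds _ hε0
  have hd : DifferentiableOn ℂ (dslope g 0) (ball 0 ε0) := (differentiableOn_dslope h0).2 hg
  have hsub : closedBall (0 : ℂ) ε ⊆ ball 0 ε0 := closedBall_subset_ball hε.2
  have hsp : sphere (0 : ℂ) |ε| ⊆ ball 0 ε0 := by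
    rw [abs_of_pos hε.1]; exact sphere_subset_closedBall.trans hsub
  have e1 : Set.EqOn (fun s => cj s * g s)
      ((fun s => g 0 * cj s) + fun s => ((ε ^ 2 : ℝ) : ℂ) * dslope g 0 s) (sphere 0 |ε|) := by
    intro s hs
    have hs' : ‖s‖ = ε := by simpa [abs_of_pos hε.1] using hs
    have h1 : g s = g 0 + s * dslope g 0 s := by
      have := sub_smul_dslope g 0 s
      rw [sub_zero, smul_eq_mul] at this
      rw [this]; ring
    have h2 : cj s * s = ((ε ^ 2 : ℝ) : ℂ) := by
      rw [cj, mul_comm, mul_conj, normSq_eq_norm_sq, hs']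
    simp only [Pi.add_apply]
    rw [← h2]
    linear_combination (cj s) * h1
  rw [Real.circleAverage_congr_sphere e1, Real.circleAverage_add]
  · have e2 : Real.circleAverage (fun s : ℂ => g 0 * cj s) 0 ε = 0 := by
      have := Real.circleAverage_fun_smul (𝕜 := ℂ) (a := g 0) (f := fun s : ℂ => cj s) (c := 0)
        (R := ε)
      simp only [smul_eq_mul] at this
      rw [this, circleAverage_conj_id hε.1, mul_zero]
    have e3 : Real.circleAverage (fun s => ((ε ^ 2 : ℝ) : ℂ) * dslope g 0 s) 0 ε =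
        ε ^ 2 * deriv g 0 := by
      rw [circleAverage_hol (ε0 := ε0) (by exact (differentiableOn_const _).mul hd) hε, dslope_same]
      push_cast; ring
    rw [e2, e3, zero_add]
  · refine ContinuousOn.circleIntegrable' ?_
    exact (continuous_const.mul continuous_conj).continuousOn
  · refine ContinuousOn.circleIntegrable' ?_
    exact continuousOn_const.mul (hd.continuousOn.mono hsp)

end

/-- **orthogonality of the powers** (lower bound for the average of `|a(s)|²_Q`) -/
theorem quad_avg {Q : Matrix (Fin n) (Fin n) ℂ} (hQ : Q.PosSemidef) {a : ℂ → Cm n} {ε0 ε : ℝ}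
    (ha : DifferentiableOn ℂ a (ball 0 ε0)) (hε : ε ∈ Ioo 0 ε0) :
    (quad Q (a 0)).re + ε ^ 2 * (quad Q (deriv a 0)).re ≤
      Real.circleAverage (fun s => (quad Q (a s)).re) 0 ε := by
  have hε0 : 0 < ε0 := hε.1.trans hε.2
  have h0 : ball (0 : ℂ) ε0 ∈ 𝓝 (0 : ℂ) := ball_mem_nhds _ hε0
  set a0 := a 0 with ha0
  set a1 := deriv a 0 with ha1
  have hsub : closedBall (0 : ℂ) ε ⊆ ball 0 ε0 := closedBall_subset_ball hε.2
  have hsp : sphere (0 : ℂ) |ε| ⊆ ball 0 ε0 := by
    rw [abs_of_pos hε.1]; exact sphere_subset_closedBall.trans hsub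
  have hg : ∀ y, DifferentiableOn ℂ (fun s => ses Q (a s) y) (ball 0 ε0) := by
    intro y
    have : DifferentiableOn ℂ (fun s => sesL Q y (a s)) (ball 0 ε0) :=
      (sesL Q y).differentiable.comp_differentiableOn ha
    simpa only [sesL_apply] using this
  have hg' : deriv (fun s => ses Q (a s) a1) 0 = ses Q a1 a1 := by
    have h1 : HasDerivAt a a1 0 := (ha.differentiableAt h0).hasDerivAt
    have h2 : HasDerivAt (fun s => sesL Q a1 (a s)) (sesL Q a1 a1) 0 :=
      (sesL Q a1).hasFDerivAt.comp_hasDerivAt 0 h1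
    simp only [sesL_apply] at h2
    exact h2.deriv
  -- the minorant
  set F : ℂ → ℂ := fun s => 2 * (ses Q (a s) a0 + cj s * ses Q (a s) a1) -
    (ses Q a0 a0 + ((ε ^ 2 : ℝ) : ℂ) * ses Q a1 a1 + cj s * ses Q a0 a1 + s * ses Q a1 a0) with hF
  have hle : ∀ s ∈ sphere (0 : ℂ) |ε|, (F s).re ≤ (quad Q (a s)).re := by
    intro s hs
    have hs' : ‖s‖ = ε := by simpa [abs_of_pos hε.1] using hs
    have h2 : cj s * s = ((ε ^ 2 : ℝ) : ℂ) := by
      rw [cj, mul_comm, mul_conj, normSq_eq_norm_sq, hs']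
    have h := quad_ge hQ (a s) (a0 + s • a1)
    refine le_trans (le_of_eq ?_) h
    rw [quad_eq_ses]
    simp only [ses_add_left, ses_add_right, ses_smul_left, ses_smul_right, hF]
    rw [← h2]
    rw [← re_ofReal_mul, ← sub_re]
    congr 1
    push_cast
    ring
  have hFc : ContinuousOn F (sphere 0 |ε|) := by
    have c1 := ((hg a0).continuousOn.mono hsp)
    have c2 := ((hg a1).continuousOn.mono hsp)
    have c3 : Continuous fun s : ℂ => cj s := continuous_conj
    simp only [hF]
    exact (continuousOn_const.mul (c1.add (c3.continuousOn.mul c2))).sub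
      ((continuousOn_const.add (c3.continuousOn.mul continuousOn_const)).add
        (continuousOn_id.mul continuousOn_const))
  have hFi : CircleIntegrable F 0 ε := ContinuousOn.circleIntegrable' hFc
  have hqc : ContinuousOn (fun s => (quad Q (a s)).re) (sphere 0 |ε|) := by
    have hac : ∀ i, ContinuousOn (fun s => a s i) (sphere 0 |ε|) := fun i =>
      (continuous_apply i).comp_continuousOn (ha.continuousOn.mono hsp)
    unfold quad
    refine continuous_re.comp_continuousOn ?_
    refine continuousOn_finset_sum _ fun i _ => continuousOn_finset_sum _ fun j _ => ?_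
    exact continuousOn_const.mul ((hac i).mul (continuous_conj.comp_continuousOn (hac j)))
  have hmono := Real.circleAverage_mono
    (f₁ := fun s => (F s).re) (f₂ := fun s => (quad Q (a s)).re) (c := 0) (R := ε)
    (ContinuousOn.circleIntegrable' (continuous_re.comp_continuousOn hFc))
    (ContinuousOn.circleIntegrable' hqc) hle
  refine le_trans (le_of_eq ?_) hmono
  have hre := ContinuousLinearMap.circleAverage_comp_comm reCLM (f := F) (c := 0) (R := ε) hFi
  have hre' : Real.circleAverage (fun s => (F s).re) 0 ε = (Real.circleAverage F 0 ε).re := hre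
  rw [hre']
  have hFavg : Real.circleAverage F 0 ε = ses Q a0 a0 + ε ^ 2 * ses Q a1 a1 := by
    have e1 : Real.circleAverage (fun s => ses Q (a s) a0) 0 ε = ses Q a0 a0 :=
      circleAverage_hol (hg a0) hε
    have e2 : Real.circleAverage (fun s => cj s * ses Q (a s) a1) 0 ε = ε ^ 2 * ses Q a1 a1 := by
      rw [circleAverage_conj_mul (hg a1) hε, hg']
    have e3 : Real.circleAverage (fun s : ℂ => cj s * ses Q a0 a1) 0 ε = 0 := by
      rw [circleAverage_conj_mul (ε0 := ε0) (differentiableOn_const _) hε]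
      simp
    have e4 : Real.circleAverage (fun s : ℂ => s * ses Q a1 a0) 0 ε = 0 := by
      rw [circleAverage_hol (ε0 := ε0) (by fun_prop) hε]
      simp
    have i1 : CircleIntegrable (fun s => ses Q (a s) a0) 0 ε :=
      ContinuousOn.circleIntegrable' ((hg a0).continuousOn.mono hsp)
    have i2 : CircleIntegrable (fun s => cj s * ses Q (a s) a1) 0 ε :=
      ContinuousOn.circleIntegrable' (continuous_conj.continuousOn.mul
        ((hg a1).continuousOn.mono hsp))
    have i3 : CircleIntegrable (fun s : ℂ => cj s * ses Q a0 a1) 0 ε :=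
      ContinuousOn.circleIntegrable' (continuous_conj.continuousOn.mul continuousOn_const)
    have i4 : CircleIntegrable (fun s : ℂ => s * ses Q a1 a0) 0 ε :=
      ContinuousOn.circleIntegrable' (continuousOn_id.mul continuousOn_const)
    have ic : ∀ c : ℂ, CircleIntegrable (fun _ : ℂ => c) 0 ε := fun c => circleIntegrable_const c 0 ε
    have t1 : Real.circleAverage (fun s => 2 * (ses Q (a s) a0 + cj s * ses Q (a s) a1)) 0 ε =
        2 * (ses Q a0 a0 + ε ^ 2 * ses Q a1 a1) := by
      have := Real.circleAverage_fun_smul (𝕜 := ℂ) (a := (2 : ℂ))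
        (f := fun s => ses Q (a s) a0 + cj s * ses Q (a s) a1) (c := 0) (R := ε)
      simp only [smul_eq_mul] at this
      rw [this, Real.circleAverage_fun_add i1 i2, e1, e2]
    have t2 : Real.circleAverage (fun s : ℂ => ses Q a0 a0 + ((ε ^ 2 : ℝ) : ℂ) * ses Q a1 a1 +
        cj s * ses Q a0 a1 + s * ses Q a1 a0) 0 ε = ses Q a0 a0 + ε ^ 2 * ses Q a1 a1 := by
      have i13 : CircleIntegrable (fun s : ℂ => ses Q a0 a0 + ((ε ^ 2 : ℝ) : ℂ) * ses Q a1 a1 +
        cj s * ses Q a0 a1) 0 ε := (ic _).add i3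
      rw [Real.circleAverage_fun_add i13 i4, Real.circleAverage_fun_add (ic _) i3, e3, e4,
        Real.circleAverage_const]
      push_cast; ring
    simp only [hF]
    rw [Real.circleAverage_fun_sub, t1, t2]
    · ring
    · exact ContinuousOn.circleIntegrable' (continuousOn_const.mul
        (((hg a0).continuousOn.mono hsp).add (continuous_conj.continuousOn.mul
        ((hg a1).continuousOn.mono hsp))))
    · exact ((ic _).add i3).add i4
  rw [hFavg, quad_eq_ses, quad_eq_ses]
  simp only [add_re]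
  congr 1
  rw [← ofReal_pow, re_ofReal_mul]

end Vale.Agent.P272.GJ
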