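import Vale.Agent.P272.GJ.Green

/-!
# P272, block SV: the integrated second variation formula and the conclusion of step (5)
-/

open MeasureTheory Set Metric Complex Filter
open scoped Real Topology ENNReal

noncomputable section

namespace Vale.Agent.P272.GJ

/-! ### slices of a function of two variables -/

section slices
variable {E : Type*} [NormedAddCommGroup E] [NormedSpace ℝ E]

lemma fderiv2_comp {g : E → ℝ} {L : ℂ →L[ℝ] E} {p : E} {z : ℂ}
    (h : ContDiffAt ℝ 2 g (p + L z)) (u v : ℂ) :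
    fderiv ℝ (fun w => fderiv ℝ (fun w => g (p + L w)) w v) z u =
      fderiv ℝ (fderiv ℝ g) (p + L z) (L u) (L v) := by
  have hL : ∀ w, HasFDerivAt (fun w => p + L w) L w := fun w => L.hasFDerivAt.const_add p
  have hev : ∀ᶠ w in 𝓝 z, ContDiffAt ℝ 2 g (p + L w) :=
    (hL z).continuousAt.eventually (h.eventually (by simp))
  have h1 : (fun w => fderiv ℝ (fun w => g (p + L w)) w v) =ᶠ[𝓝 z]
      fun w => fderiv ℝ g (p + L w) (L v) := by
    filter_upwards [hev] with w hw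
    have := ((hw.differentiableAt (by norm_num)).hasFDerivAt.comp w (hL w)).fderiv
    have h2 : fderiv ℝ (fun w => g (p + L w)) w = (fderiv ℝ g (p + L w)).comp L := this
    rw [h2]
    rfl
  rw [h1.fderiv_eq]
  have h3 : DifferentiableAt ℝ (fderiv ℝ g) (p + L z) :=
    (h.fderiv_right (m := 1) (by norm_num)).differentiableAt (by norm_num)
  have h4 : HasFDerivAt (fun w => fderiv ℝ g (p + L w))
      ((fderiv ℝ (fderiv ℝ g) (p + L z)).comp L) z := h3.hasFDerivAt.comp z (hL z)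
  have h5 : HasFDerivAt (fun w => fderiv ℝ g (p + L w) (L v))
      ((ContinuousLinearMap.apply ℝ ℝ (L v)).comp ((fderiv ℝ (fderiv ℝ g) (p + L z)).comp L)) z :=
    (ContinuousLinearMap.apply ℝ ℝ (L v)).hasFDerivAt.comp z h4
  rw [h5.fderiv]
  rfl

lemma ddb_comp {g : E → ℝ} {L : ℂ →L[ℝ] E} {p : E} {z : ℂ}
    (h : ContDiffAt ℝ 2 g (p + L z)) :
    ddb (fun w => g (p + L w)) z = (fderiv ℝ (fderiv ℝ g) (p + L z) (L 1) (L 1) +
      fderiv ℝ (fderiv ℝ g) (p + L z) (L I) (L I)) / 4 := by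
  rw [ddb, fderiv2_comp h, fderiv2_comp h]

end slices

section
variable {Θ Ξ : ℂ → ℂ → ℝ} {ε r : ℝ}

lemma ddb_snd {s z : ℂ} (h : ContDiffAt ℝ 2 (fun p : ℂ × ℂ => Θ p.1 p.2) (s, z)) :
    ddb (Θ s) z = (fderiv ℝ (fderiv ℝ fun p : ℂ × ℂ => Θ p.1 p.2) (s, z) (0, 1) (0, 1) +
      fderiv ℝ (fderiv ℝ fun p : ℂ × ℂ => Θ p.1 p.2) (s, z) (0, I) (0, I)) / 4 := by
  have h' : ContDiffAt ℝ 2 (fun p : ℂ × ℂ => Θ p.1 p.2)
      ((s, 0) + ContinuousLinearMap.inr ℝ ℂ ℂ z) := by simpa using h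
  simpa using ddb_comp h'

lemma ddb_fst {s z : ℂ} (h : ContDiffAt ℝ 2 (fun p : ℂ × ℂ => Θ p.1 p.2) (s, z)) :
    ddb (fun s => Θ s z) s = (fderiv ℝ (fderiv ℝ fun p : ℂ × ℂ => Θ p.1 p.2) (s, z) (1, 0) (1, 0) +
      fderiv ℝ (fderiv ℝ fun p : ℂ × ℂ => Θ p.1 p.2) (s, z) (I, 0) (I, 0)) / 4 := by
  have h' : ContDiffAt ℝ 2 (fun p : ℂ × ℂ => Θ p.1 p.2)
      ((0, z) + ContinuousLinearMap.inl ℝ ℂ ℂ s) := by simpa using h
  simpa using ddb_comp h'

lemma contDiffAt_snd {s z : ℂ} (h : ContDiffAt ℝ 2 (fun p : ℂ × ℂ => Θ p.1 p.2) (s, z)) :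
    ContDiffAt ℝ 2 (Θ s) z := by
  have : ContDiffAt ℝ 2 (fun z : ℂ => (s, z)) z := contDiffAt_const.prodMk contDiffAt_id
  exact h.comp z this

lemma contDiffAt_fst {s z : ℂ} (h : ContDiffAt ℝ 2 (fun p : ℂ × ℂ => Θ p.1 p.2) (s, z)) :
    ContDiffAt ℝ 2 (fun s => Θ s z) s := by
  have : ContDiffAt ℝ 2 (fun s : ℂ => (s, z)) s := contDiffAt_id.prodMk contDiffAt_const
  exact h.comp s this

lemma contOn_ddb_snd {K : Set (ℂ × ℂ)}
    (h : ∀ p ∈ K, ContDiffAt ℝ 2 (fun p : ℂ × ℂ => Θ p.1 p.2) p) :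
    ContinuousOn (fun p : ℂ × ℂ => ddb (Θ p.1) p.2) K := by
  have h2 : ContinuousOn (fderiv ℝ (fderiv ℝ fun p : ℂ × ℂ => Θ p.1 p.2)) K := fun p hp =>
    (((h p hp).fderiv_right (m := 1) (by norm_num)).fderiv_right (m := 0)
      (by norm_num)).continuousAt.continuousWithinAt
  have h3 : ContinuousOn (fun p => (fderiv ℝ (fderiv ℝ fun p : ℂ × ℂ => Θ p.1 p.2) p (0, 1) (0, 1) +
      fderiv ℝ (fderiv ℝ fun p : ℂ × ℂ => Θ p.1 p.2) p (0, I) (0, I)) / 4) K := by fun_prop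
  exact h3.congr fun p hp => ddb_snd (h p hp)

end

/-! ### integrability on products -/

lemma integrable_mul_cont {α β : Type*} [TopologicalSpace α] [TopologicalSpace β]
    [MeasurableSpace α] [MeasurableSpace β] [OpensMeasurableSpace α] [OpensMeasurableSpace β]
    [SecondCountableTopology α] [SecondCountableTopology β]
    {μ : Measure α} {ν : Measure β} [SFinite μ] [SFinite ν] {A K1 : Set α} {B K2 : Set β}
    {f : α → ℝ} {g : β → ℝ} (hf : IntegrableOn f A μ) (hg : IntegrableOn g B ν)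
    (hA : MeasurableSet A) (hB : MeasurableSet B) (hK1 : IsCompact K1) (hK2 : IsCompact K2)
    (hAK : A ⊆ K1) (hBK : B ⊆ K2) {H : α × β → ℝ} (hH : ContinuousOn H (K1 ×ˢ K2)) :
    Integrable (fun p : α × β => f p.1 * g p.2 * H p) ((μ.restrict A).prod (ν.restrict B)) := by
  obtain ⟨C, hC⟩ := (hK1.prod hK2).exists_bound_of_continuousOn hH
  have h1 : Integrable (fun p : α × β => f p.1 * g p.2) ((μ.restrict A).prod (ν.restrict B)) :=
    Integrable.mul_prod hf hg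
  have hms : MeasurableSet (A ×ˢ B) := hA.prod hB
  have hsub : A ×ˢ B ⊆ K1 ×ˢ K2 := prod_mono hAK hBK
  refine Integrable.mul_bdd (c := C) h1 ?_ ?_
  · rw [Measure.prod_restrict]
    exact (hH.mono hsub).aestronglyMeasurable hms
  · rw [Measure.prod_restrict]
    filter_upwards [ae_restrict_mem hms] with p hp
    exact hC p (hsub hp)

section
variable {Θ Ξ : ℂ → ℂ → ℝ} {ε r : ℝ}

/-- the circle average and the integral against the Green function commute -/
lemma circleAverage_green_swap (hr : 0 < r) (hε : 0 ≤ ε) {H : ℂ → ℂ → ℝ}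
    (hH : ContinuousOn (fun p : ℂ × ℂ => H p.1 p.2) (closedBall 0 ε ×ˢ closedBall 0 r)) :
    Real.circleAverage (fun s => ∫ z in ball (0 : ℂ) r, Gr r z * H s z) 0 ε =
      ∫ z in ball (0 : ℂ) r, Gr r z * Real.circleAverage (fun s => H s z) 0 ε := by
  have hpi : -π ≤ π := by linarith [Real.pi_pos]
  simp_rw [circleAverage_eq_pi, intervalIntegral.integral_of_le hpi, smul_eq_mul]
  have hcont : ContinuousOn (fun p : ℝ × ℂ => H (pt ε p.1) p.2) (Icc (-π) π ×ˢ closedBall 0 r) := by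
    refine hH.comp (t := closedBall 0 ε ×ˢ closedBall 0 r) (f := fun p : ℝ × ℂ => (pt ε p.1, p.2)) ?_ fun p hp => ⟨pt_mem hε le_rfl _, hp.2⟩
    have : Continuous fun p : ℝ × ℂ => (pt ε p.1, p.2) := by unfold pt; fun_prop
    exact this.continuousOn
  have hint := integrable_mul_cont (μ := volume) (ν := volume) (f := fun _ : ℝ => (1 : ℝ))
    (A := Ioc (-π) π) (g := Gr r) (by simp) (integrableOn_Gr hr) measurableSet_Ioc
    measurableSet_ball isCompact_Icc (isCompact_closedBall 0 r) Ioc_subset_Icc_self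
    ball_subset_closedBall hcont
  simp only [one_mul] at hint
  rw [integral_integral_swap hint, ← integral_const_mul]
  refine integral_congr_ae (Eventually.of_forall fun z => ?_)
  simp only
  rw [integral_const_mul]
  ring

/-- **the integrated second variation formula** -/
theorem second_integrated (hε : 0 < ε) (hr : 0 < r)
    (hΘ : ∀ s ∈ closedBall (0 : ℂ) ε, ∀ z ∈ closedBall (0 : ℂ) r,
      ContDiffAt ℝ 2 (fun p : ℂ × ℂ => Θ p.1 p.2) (s, z))
    (hΞ : ∀ s ∈ closedBall (0 : ℂ) ε, ∀ z ∈ closedBall (0 : ℂ) r,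
      ContDiffAt ℝ 2 (fun p : ℂ × ℂ => Ξ p.1 p.2) (s, z))
    (hid : ∀ s ∈ ball (0 : ℂ) ε, ∀ z ∈ ball (0 : ℂ) r, ddb (fun s => Θ s z) s = ddb (Ξ s) z) :
    Real.circleAverage (fun s => ∫ z in ball (0 : ℂ) r, Gr r z * Θ s z) 0 ε -
        ∫ z in ball (0 : ℂ) r, Gr r z * Θ 0 z =
      ∫ s in ball (0 : ℂ) ε, Gr ε s * (Real.circleAverage (Ξ s) 0 r - Ξ s 0) := by
  have cΘ : ContinuousOn (fun p : ℂ × ℂ => Θ p.1 p.2) (closedBall 0 ε ×ˢ closedBall 0 r) :=
    fun p hp => (hΘ p.1 hp.1 p.2 hp.2).continuousAt.continuousWithinAt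
  have cD : ContinuousOn (fun p : ℂ × ℂ => ddb (Ξ p.1) p.2) (closedBall 0 ε ×ˢ closedBall 0 r) :=
    contOn_ddb_snd (Θ := Ξ) fun p hp => hΞ p.1 hp.1 p.2 hp.2
  have h0ε : (0 : ℂ) ∈ closedBall (0 : ℂ) ε := mem_closedBall_self hε.le
  -- left-hand side
  have hI1 : IntegrableOn (fun z => Gr r z * Real.circleAverage (fun s => Θ s z) 0 ε)
      (ball (0 : ℂ) r) := by
    refine integrableOn_Gr_mul hr ?_
    have : ContinuousOn (fun z => Real.circleAverage (fun s => Θ s z) 0 ε) (closedBall 0 r) := by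
      simp_rw [circleAverage_eq_pi, smul_eq_mul]
      refine continuousOn_const.mul ?_
      have hpi : -π ≤ π := by linarith [Real.pi_pos]
      rw [continuousOn_iff_continuous_domRestrict]
      have hc : Continuous (fun p : (closedBall (0 : ℂ) r) × ℝ => Θ (pt ε p.2) p.1) := by
        rw [← continuousOn_univ]
        refine cΘ.comp (t := closedBall 0 ε ×ˢ closedBall 0 r)
          (f := fun p : (closedBall (0 : ℂ) r) × ℝ => (pt ε p.2, (p.1 : ℂ))) ?_
          fun p _ => ⟨pt_mem hε.le le_rfl _, p.1.2⟩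
        have : Continuous fun p : (closedBall (0 : ℂ) r) × ℝ => (pt ε p.2, (p.1 : ℂ)) := by
          unfold pt; fun_prop
        exact this.continuousOn
      exact intervalIntegral.continuous_parametric_intervalIntegral_of_continuous' hc _ _
    exact this
  have hI2 : IntegrableOn (fun z => Gr r z * Θ 0 z) (ball (0 : ℂ) r) :=
    integrableOn_Gr_mul hr fun z hz =>
      (contDiffAt_snd (hΘ 0 h0ε z hz)).continuousAt.continuousWithinAt
  rw [circleAverage_green_swap hr hε.le cΘ, ← integral_sub hI1 hI2]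
  have hint := integrable_mul_cont (μ := volume) (ν := volume) (f := Gr ε) (g := Gr r)
    (integrableOn_Gr hε) (integrableOn_Gr hr) measurableSet_ball
    measurableSet_ball (isCompact_closedBall 0 ε) (isCompact_closedBall 0 r)
    ball_subset_closedBall ball_subset_closedBall cD
  have e1 : ∀ z ∈ ball (0 : ℂ) r, Gr r z * Real.circleAverage (fun s => Θ s z) 0 ε -
      Gr r z * Θ 0 z = ∫ s in ball (0 : ℂ) ε, Gr ε s * Gr r z * ddb (Ξ s) z := by
    intro z hz
    have h1 := green_jensen (φ := fun s => Θ s z) hε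
      fun s hs => contDiffAt_fst (hΘ s hs z (ball_subset_closedBall hz))
    rw [← mul_sub, ← h1, ← integral_const_mul]
    refine setIntegral_congr_fun measurableSet_ball fun s hs => ?_
    rw [hid s hs z hz]
    ring
  have e2 : ∀ s ∈ ball (0 : ℂ) ε, Gr ε s * (Real.circleAverage (Ξ s) 0 r - Ξ s 0) =
      ∫ z in ball (0 : ℂ) r, Gr ε s * Gr r z * ddb (Ξ s) z := by
    intro s hs
    have h1 := green_jensen (φ := Ξ s) hr
      fun z hz => contDiffAt_snd (hΞ s (ball_subset_closedBall hs) z hz)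
    rw [← h1, ← integral_const_mul]
    refine setIntegral_congr_fun measurableSet_ball fun z hz => ?_
    ring
  rw [setIntegral_congr_fun measurableSet_ball e1, setIntegral_congr_fun measurableSet_ball e2]
  exact (integral_integral_swap hint).symm

lemma contOn_circleAverage (hr : 0 ≤ r) {H : ℂ → ℂ → ℝ}
    (hH : ContinuousOn (fun p : ℂ × ℂ => H p.1 p.2) (closedBall 0 ε ×ˢ closedBall 0 r)) :
    ContinuousOn (fun s => Real.circleAverage (H s) 0 r) (closedBall 0 ε) := by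
  simp_rw [circleAverage_eq_pi, smul_eq_mul]
  refine continuousOn_const.mul ?_
  rw [continuousOn_iff_continuous_domRestrict]
  have hc : Continuous (fun p : (closedBall (0 : ℂ) ε) × ℝ => H p.1 (pt r p.2)) := by
    rw [← continuousOn_univ]
    refine hH.comp (t := closedBall 0 ε ×ˢ closedBall 0 r)
      (f := fun p : (closedBall (0 : ℂ) ε) × ℝ => ((p.1 : ℂ), pt r p.2)) ?_
      fun p _ => ⟨p.1.2, pt_mem hr le_rfl _⟩
    have : Continuous fun p : (closedBall (0 : ℂ) ε) × ℝ => ((p.1 : ℂ), pt r p.2) := by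
      unfold pt; fun_prop
    exact this.continuousOn
  exact intervalIntegral.continuous_parametric_intervalIntegral_of_continuous' hc _ _

lemma integrableOn_TT_circle (hr : 0 < r) (hε : 0 ≤ ε) {H : ℂ → ℂ → ℝ}
    (hH : ContinuousOn (fun p : ℂ × ℂ => H p.1 p.2) (closedBall 0 ε ×ˢ closedBall 0 r)) :
    IntegrableOn (fun θ => ∫ z in ball (0 : ℂ) r, Gr r z * H (pt ε θ) z) (Ioc (-π) π) := by
  have hcont : ContinuousOn (fun p : ℝ × ℂ => H (pt ε p.1) p.2) (Icc (-π) π ×ˢ closedBall 0 r) := by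
    refine hH.comp (t := closedBall 0 ε ×ˢ closedBall 0 r)
      (f := fun p : ℝ × ℂ => (pt ε p.1, p.2)) ?_ fun p hp => ⟨pt_mem hε le_rfl _, hp.2⟩
    have : Continuous fun p : ℝ × ℂ => (pt ε p.1, p.2) := by unfold pt; fun_prop
    exact this.continuousOn
  have hint := integrable_mul_cont (μ := volume) (ν := volume) (f := fun _ : ℝ => (1 : ℝ))
    (A := Ioc (-π) π) (g := Gr r) (by simp) (integrableOn_Gr hr) measurableSet_Ioc
    measurableSet_ball isCompact_Icc (isCompact_closedBall 0 r) Ioc_subset_Icc_self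
    ball_subset_closedBall hcont
  simp only [one_mul] at hint
  exact hint.integral_prod_left

end

/-! ### the characteristic of a density -/

/-- `T = ∫_D G θ dA` -/
def TT (θ : ℂ → ℝ) : ℝ≥0∞ := ∫⁻ z in ball (0 : ℂ) 1, ENNReal.ofReal (Gr 1 z * θ z)

lemma ofReal_integral_Gr {r : ℝ} (hr : 0 < r) {θ : ℂ → ℝ} (hc : ContinuousOn θ (closedBall 0 r))
    (h0 : ∀ z ∈ ball (0 : ℂ) r, 0 ≤ θ z) :
    ENNReal.ofReal (∫ z in ball (0 : ℂ) r, Gr r z * θ z) =
      ∫⁻ z in ball (0 : ℂ) r, ENNReal.ofReal (Gr r z * θ z) := by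
  refine ofReal_integral_eq_lintegral_ofReal (integrableOn_Gr_mul hr hc) ?_
  filter_upwards [ae_restrict_mem measurableSet_ball] with z hz
  exact mul_nonneg (Gr_nonneg hz) (h0 z hz)

/-- `T^(r) ≤ T` -/
lemma ofReal_Tr_le {r : ℝ} (hr : 0 < r) (hr1 : r < 1) {θ : ℂ → ℝ}
    (hc : ContinuousOn θ (ball 0 1)) (h0 : ∀ z ∈ ball (0 : ℂ) 1, 0 ≤ θ z) :
    ENNReal.ofReal (∫ z in ball (0 : ℂ) r, Gr r z * θ z) ≤ TT θ := by
  have hsub : ball (0 : ℂ) r ⊆ ball 0 1 := ball_subset_ball hr1.le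
  rw [ofReal_integral_Gr hr (hc.mono (closedBall_subset_ball hr1)) fun z hz => h0 z (hsub hz)]
  calc ∫⁻ z in ball (0 : ℂ) r, ENNReal.ofReal (Gr r z * θ z)
      ≤ ∫⁻ z in ball (0 : ℂ) r, ENNReal.ofReal (Gr 1 z * θ z) := by
        refine setLIntegral_mono' measurableSet_ball fun z hz => ENNReal.ofReal_le_ofReal ?_
        exact mul_le_mul_of_nonneg_right (Gr_mono hr hr1.le z) (h0 z (hsub hz))
    _ ≤ TT θ := lintegral_mono_set hsub

/-- Fatou: `T ≤ liminf T^(r_k)` -/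
lemma TT_le_liminf {θ : ℂ → ℝ} (hc : ContinuousOn θ (ball 0 1))
    (h0 : ∀ z ∈ ball (0 : ℂ) 1, 0 ≤ θ z) {ρ : ℕ → ℝ} (hρ0 : ∀ k, 0 < ρ k) (hρ1 : ∀ k, ρ k < 1)
    (hρ : Tendsto ρ atTop (𝓝 1)) :
    TT θ ≤ liminf (fun k => ENNReal.ofReal (∫ z in ball (0 : ℂ) (ρ k), Gr (ρ k) z * θ z)) atTop := by
  set f : ℕ → ℂ → ℝ≥0∞ := fun k => (ball (0 : ℂ) (ρ k)).indicator
    fun z => ENNReal.ofReal (Gr (ρ k) z * θ z) with hf
  have h1 : ∀ k, ENNReal.ofReal (∫ z in ball (0 : ℂ) (ρ k), Gr (ρ k) z * θ z) =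
      ∫⁻ z in ball (0 : ℂ) 1, f k z := by
    intro k
    have hsub : ball (0 : ℂ) (ρ k) ⊆ ball 0 1 := ball_subset_ball (hρ1 k).le
    rw [ofReal_integral_Gr (hρ0 k) (hc.mono (closedBall_subset_ball (hρ1 k)))
      fun z hz => h0 z (hsub hz), hf, setLIntegral_indicator measurableSet_ball,
      inter_eq_left.2 hsub]
  simp_rw [h1]
  have hm : ∀ k, AEMeasurable (f k) (volume.restrict (ball (0 : ℂ) 1)) := by
    intro k
    refine AEMeasurable.indicator ?_ measurableSet_ball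
    exact ((measurable_Gr _).aemeasurable.mul
      (hc.aemeasurable measurableSet_ball)).ennreal_ofReal
  refine le_trans ?_ (lintegral_liminf_le' hm)
  refine setLIntegral_mono' measurableSet_ball fun z hz => ?_
  have ht : Tendsto (fun k => f k z) atTop (𝓝 (ENNReal.ofReal (Gr 1 z * θ z))) := by
    have h2 : Tendsto (fun k => ENNReal.ofReal (Gr (ρ k) z * θ z)) atTop
        (𝓝 (ENNReal.ofReal (Gr 1 z * θ z))) := by
      refine ENNReal.tendsto_ofReal (Tendsto.mul_const _ ?_)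
      exact (continuousAt_Gr one_ne_zero z).tendsto.comp hρ
    refine h2.congr' ?_
    have h3 : ∀ᶠ k in atTop, ‖z‖ < ρ k := by
      have : ‖z‖ < 1 := by simpa using hz
      exact hρ.eventually (lt_mem_nhds this)
    filter_upwards [h3] with k hk
    rw [hf]
    simp only
    rw [indicator_of_mem]
    simpa using hk
  rw [ht.liminf_eq]

/-- monotone convergence `T^(r_k) → T` -/
theorem tendsto_Tr {θ : ℂ → ℝ} (hc : ContinuousOn θ (ball 0 1))
    (h0 : ∀ z ∈ ball (0 : ℂ) 1, 0 ≤ θ z) {ρ : ℕ → ℝ} (hρ0 : ∀ k, 0 < ρ k) (hρ1 : ∀ k, ρ k < 1)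
    (hρ : Tendsto ρ atTop (𝓝 1)) :
    Tendsto (fun k => ENNReal.ofReal (∫ z in ball (0 : ℂ) (ρ k), Gr (ρ k) z * θ z)) atTop
      (𝓝 (TT θ)) := by
  refine tendsto_of_le_liminf_of_limsup_le (TT_le_liminf hc h0 hρ0 hρ1 hρ) ?_
  exact limsup_le_of_le (by isBoundedDefault)
    (Eventually.of_forall fun k => ofReal_Tr_le (hρ0 k) (hρ1 k) hc h0)

/-! ### the second variation inequality -/

section
variable {Θ Ξ : ℂ → ℂ → ℝ} {ε0 : ℝ}

/-- uniform continuity of the boundary term -/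
lemma circleAverage_near (hε0 : 0 < ε0)
    (hΞc : ContinuousOn (fun p : ℂ × ℂ => Ξ p.1 p.2) (ball 0 ε0 ×ˢ closedBall 0 1))
    {η : ℝ} (hη : 0 < η) : ∃ δ : ℝ, 0 < δ ∧ δ < ε0 ∧ δ < 1 ∧ ∀ s ∈ closedBall (0 : ℂ) δ,
      ∀ r ∈ Icc (1 - δ) 1, Real.circleAverage (Ξ s) 0 r ≤ Real.circleAverage (Ξ 0) 0 1 + η := by
  have hK : IsCompact (closedBall (0 : ℂ) (ε0 / 2) ×ˢ closedBall (0 : ℂ) 1) :=
    (isCompact_closedBall _ _).prod (isCompact_closedBall _ _)
  have hcK : ContinuousOn (fun p : ℂ × ℂ => Ξ p.1 p.2)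
      (closedBall (0 : ℂ) (ε0 / 2) ×ˢ closedBall (0 : ℂ) 1) :=
    hΞc.mono (prod_mono (closedBall_subset_ball (by linarith)) le_rfl)
  have hu := hK.uniformContinuousOn_of_continuous hcK
  rw [Metric.uniformContinuousOn_iff] at hu
  obtain ⟨δ1, hδ1, hu⟩ := hu η hη
  set δ := min (min (δ1 / 2) (ε0 / 2)) (1 / 2) with hδ
  have hδ0 : 0 < δ := by positivity
  have hδa : δ ≤ δ1 / 2 := (min_le_left _ _).trans (min_le_left _ _)
  have hδb : δ ≤ ε0 / 2 := (min_le_left _ _).trans (min_le_right _ _)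
  have hδc : δ ≤ 1 / 2 := min_le_right _ _
  refine ⟨δ, hδ0, by linarith, by linarith, fun s hs r hr => ?_⟩
  have hpi : -π ≤ π := by linarith [Real.pi_pos]
  have hr0 : 0 ≤ r := by linarith [hr.1]
  have hs' : ‖s‖ ≤ δ := by simpa using hs
  have hsK : s ∈ closedBall (0 : ℂ) (ε0 / 2) := by
    rw [mem_closedBall, dist_zero_right]; linarith
  have h0K : (0 : ℂ) ∈ closedBall (0 : ℂ) (ε0 / 2) := mem_closedBall_self (by linarith)
  have hpoint : ∀ θ, Ξ s (pt r θ) ≤ Ξ 0 (pt 1 θ) + η := by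
    intro θ
    have h1 := hu (s, pt r θ) ⟨hsK, pt_mem hr0 hr.2 θ⟩ (0, pt 1 θ)
      ⟨h0K, pt_mem zero_le_one le_rfl θ⟩ ?_
    · have := (abs_lt.1 h1).2
      simp only at this
      linarith
    · rw [Prod.dist_eq]
      refine max_lt ?_ ?_
      · simp only [dist_zero_right]; linarith
      · have : dist (pt r θ) (pt 1 θ) = |r - 1| := by
          rw [dist_eq_norm, pt, pt, ← sub_mul]
          rw [norm_mul, norm_exp_ofReal_mul_I, mul_one, ← ofReal_sub, norm_real]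
          rfl
        simp only
        rw [this, abs_lt]
        constructor <;> linarith [hr.1, hr.2]
  have hc1 : Continuous fun θ => Ξ s (pt r θ) := by
    rw [← continuousOn_univ]
    refine hcK.comp (f := fun θ : ℝ => (s, pt r θ)) ?_ fun θ _ => ⟨hsK, pt_mem hr0 hr.2 θ⟩
    have : Continuous fun θ : ℝ => (s, pt r θ) := by unfold pt; fun_prop
    exact this.continuousOn
  have hc2 : Continuous fun θ => Ξ 0 (pt 1 θ) := by
    rw [← continuousOn_univ]
    refine hcK.comp (f := fun θ : ℝ => ((0 : ℂ), pt 1 θ)) ?_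
      fun θ _ => ⟨h0K, pt_mem zero_le_one le_rfl θ⟩
    have : Continuous fun θ : ℝ => ((0 : ℂ), pt 1 θ) := by unfold pt; fun_prop
    exact this.continuousOn
  rw [circleAverage_eq_pi, circleAverage_eq_pi, smul_eq_mul, smul_eq_mul]
  have h2 : ∫ θ in (-π)..π, Ξ s (pt r θ) ≤ ∫ θ in (-π)..π, (Ξ 0 (pt 1 θ) + η) :=
    intervalIntegral.integral_mono_on hpi (hc1.intervalIntegrable _ _)
      ((hc2.add continuous_const).intervalIntegrable _ _) fun θ _ => hpoint θ
  rw [intervalIntegral.integral_add (hc2.intervalIntegrable _ _)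
    (continuous_const.intervalIntegrable _ _), intervalIntegral.integral_const, smul_eq_mul] at h2
  have hpp := Real.pi_pos
  calc (2 * π)⁻¹ * ∫ θ in (-π)..π, Ξ s (pt r θ)
      ≤ (2 * π)⁻¹ * ((∫ θ in (-π)..π, Ξ 0 (pt 1 θ)) + (π - -π) * η) := by gcongr
    _ = _ := by field_simp; ring

/-- **the second variation inequality** (step (5)) -/
theorem second_variation (hε0 : 0 < ε0)
    (hΘ : ∀ s ∈ ball (0 : ℂ) ε0, ∀ z ∈ ball (0 : ℂ) 1,
      ContDiffAt ℝ 2 (fun p : ℂ × ℂ => Θ p.1 p.2) (s, z))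
    (hΞ : ∀ s ∈ ball (0 : ℂ) ε0, ∀ z ∈ ball (0 : ℂ) 1,
      ContDiffAt ℝ 2 (fun p : ℂ × ℂ => Ξ p.1 p.2) (s, z))
    (hid : ∀ s ∈ ball (0 : ℂ) ε0, ∀ z ∈ ball (0 : ℂ) 1, ddb (fun s => Θ s z) s = ddb (Ξ s) z)
    (hΘ0 : ∀ s ∈ ball (0 : ℂ) ε0, ∀ z ∈ ball (0 : ℂ) 1, 0 ≤ Θ s z)
    (hΞ0 : ∀ s ∈ ball (0 : ℂ) ε0, 0 ≤ Ξ s 0)
    (hΞc : ContinuousOn (fun p : ℂ × ℂ => Ξ p.1 p.2) (ball 0 ε0 ×ˢ closedBall 0 1))
    {B : ℂ → ℝ} (hBc : ContinuousOn B (ball 0 ε0)) {c : ℝ}
    (hBavg : ∀ ε ∈ Ioo 0 ε0, B 0 + ε ^ 2 * c ≤ Real.circleAverage B 0 ε)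
    {lam : ℝ} (hlam : 0 ≤ lam) (hT : TT (Θ 0) ≠ ∞)
    (hmax : ∀ s ∈ ball (0 : ℂ) ε0, TT (Θ s) ≠ ∞ →
      B s + lam * (TT (Θ 0)).toReal ≤ B 0 + lam * (TT (Θ s)).toReal) :
    c ≤ lam * Real.circleAverage (Ξ 0) 0 1 := by
  refine le_of_forall_pos_le_add fun η' hη' => ?_
  set η : ℝ := η' / (lam + 1) with hηdef
  have hη : 0 < η := by positivity
  obtain ⟨δ, hδ0, hδ1, hδ2, hnear⟩ := circleAverage_near hε0 hΞc hη
  set m := Real.circleAverage (Ξ 0) 0 1 with hm
  set ε := δ / 2 with hεdef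
  have hε : 0 < ε := by positivity
  have hεε0 : ε < ε0 := by linarith
  have hεδ : ε < δ := by linarith
  have h00 : (0 : ℂ) ∈ ball (0 : ℂ) ε0 := mem_ball_self hε0
  set L := (TT (Θ 0)).toReal + ε ^ 2 * (m + η) with hL
  -- step 2
  have step2 : ∀ r ∈ Ico (1 - δ) 1, Real.circleAverage
      (fun s => ∫ z in ball (0 : ℂ) r, Gr r z * Θ s z) 0 ε ≤ L := by
    intro r hr
    have hr0 : 0 < r := by linarith [hr.1]
    have hr1 : r < 1 := hr.2
    have hsub1 : closedBall (0 : ℂ) ε ⊆ ball 0 ε0 := closedBall_subset_ball hεε0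
    have hsub2 : closedBall (0 : ℂ) r ⊆ ball 0 1 := closedBall_subset_ball hr1
    have h1 := second_integrated hε hr0 (fun s hs z hz => hΘ s (hsub1 hs) z (hsub2 hz))
      (fun s hs z hz => hΞ s (hsub1 hs) z (hsub2 hz))
      (fun s hs z hz => hid s (hsub1 (ball_subset_closedBall hs)) z
        (hsub2 (ball_subset_closedBall hz)))
    have h2 : ∫ s in ball (0 : ℂ) ε, Gr ε s * (Real.circleAverage (Ξ s) 0 r - Ξ s 0) ≤
        ∫ s in ball (0 : ℂ) ε, Gr ε s * (m + η) := by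
      have hcΞ : ContinuousOn (fun p : ℂ × ℂ => Ξ p.1 p.2) (closedBall 0 ε ×ˢ closedBall 0 r) :=
        hΞc.mono (prod_mono hsub1 (closedBall_subset_closedBall hr1.le))
      have hc0 : ContinuousOn (fun s => Ξ s 0) (closedBall (0 : ℂ) ε) := by
        refine hcΞ.comp (f := fun s : ℂ => (s, (0 : ℂ))) (by fun_prop)
          fun s hs => ⟨hs, mem_closedBall_self hr0.le⟩
      refine setIntegral_mono_on (integrableOn_Gr_mul hε
        ((contOn_circleAverage hr0.le hcΞ).sub hc0)) ((integrableOn_Gr hε).mul_const _)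
        measurableSet_ball fun s hs => ?_
      refine mul_le_mul_of_nonneg_left ?_ (Gr_nonneg hs)
      have hs1 : s ∈ closedBall (0 : ℂ) δ :=
        closedBall_subset_closedBall hεδ.le (ball_subset_closedBall hs)
      have := hnear s hs1 r ⟨hr.1, hr1.le⟩
      have := hΞ0 s (hsub1 (ball_subset_closedBall hs))
      linarith
    rw [integral_mul_const, integral_Gr hε] at h2
    have h3 : ∫ z in ball (0 : ℂ) r, Gr r z * Θ 0 z ≤ (TT (Θ 0)).toReal := by
      have := ofReal_Tr_le hr0 hr1 (θ := Θ 0)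
        (fun z hz => (contDiffAt_snd (hΘ 0 h00 z hz)).continuousAt.continuousWithinAt)
        (hΘ0 0 h00)
      exact (ENNReal.ofReal_le_iff_le_toReal hT).1 this
    linarith
  -- the approximating radii
  set ρ : ℕ → ℝ := fun k => 1 - δ / (k + 1) with hρdef
  have hρ1 : ∀ k, ρ k < 1 := fun k => by
    have : 0 < δ / ((k : ℝ) + 1) := by positivity
    simp only [hρdef]; linarith
  have hρδ : ∀ k, 1 - δ ≤ ρ k := fun k => by
    have : δ / ((k : ℝ) + 1) ≤ δ := div_le_self hδ0.le (by linarith [k.cast_nonneg (α := ℝ)])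
    simp only [hρdef]; linarith
  have hρ0 : ∀ k, 0 < ρ k := fun k => by linarith [hρδ k]
  have hρ : Tendsto ρ atTop (𝓝 1) := by
    have h1 : Tendsto (fun k : ℕ => δ / ((k : ℝ) + 1)) atTop (𝓝 0) := by
      have := (tendsto_one_div_add_atTop_nhds_zero_nat (𝕜 := ℝ)).const_mul δ
      simpa [div_eq_mul_inv] using this
    simpa using tendsto_const_nhds.sub h1
  set W : ℕ → ℂ → ℝ := fun k s => ∫ z in ball (0 : ℂ) (ρ k), Gr (ρ k) z * Θ s z with hW
  have hpt : ∀ θ, pt ε θ ∈ ball (0 : ℂ) ε0 := fun θ => by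
    rw [mem_ball, dist_zero_right, norm_pt, abs_of_pos hε]; exact hεε0
  have hWnn : ∀ k, ∀ s ∈ ball (0 : ℂ) ε0, 0 ≤ W k s := fun k s hs =>
    setIntegral_nonneg measurableSet_ball fun z hz => mul_nonneg (Gr_nonneg hz)
      (hΘ0 s hs z (ball_subset_ball (hρ1 k).le hz))
  have hWint : ∀ k, IntegrableOn (fun θ => W k (pt ε θ)) (Ioc (-π) π) := fun k =>
    integrableOn_TT_circle (hρ0 k) hε.le fun p hp =>
      (hΘ p.1 (closedBall_subset_ball hεε0 hp.1) p.2
        (closedBall_subset_ball (hρ1 k) hp.2)).continuousAt.continuousWithinAt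
  have hpi : -π ≤ π := by linarith [Real.pi_pos]
  have hpp := Real.pi_pos
  have hWavg : ∀ k, ∫ θ in Ioc (-π) π, W k (pt ε θ) ≤ 2 * π * L := by
    intro k
    have h1 := step2 (ρ k) ⟨hρδ k, hρ1 k⟩
    rw [circleAverage_eq_pi, intervalIntegral.integral_of_le hpi, smul_eq_mul,
      inv_mul_le_iff₀ (by positivity)] at h1
    exact h1
  have hL0 : 0 ≤ 2 * π * L := le_trans (setIntegral_nonneg measurableSet_Ioc fun θ _ =>
    hWnn 0 _ (hpt θ)) (hWavg 0)
  set U : ℝ → ℝ≥0∞ := fun θ => liminf (fun k => ENNReal.ofReal (W k (pt ε θ))) atTop with hU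
  have hmeas : ∀ k, AEMeasurable (fun θ => ENNReal.ofReal (W k (pt ε θ)))
      (volume.restrict (Ioc (-π) π)) := fun k => (hWint k).aemeasurable.ennreal_ofReal
  have hUm : AEMeasurable U (volume.restrict (Ioc (-π) π)) := by
    simp only [hU, liminf_eq_iSup_iInf_of_nat']
    exact AEMeasurable.iSup fun n => AEMeasurable.iInf fun i => hmeas _
  have hUint : ∫⁻ θ in Ioc (-π) π, U θ ≤ ENNReal.ofReal (2 * π * L) := by
    refine (lintegral_liminf_le' hmeas).trans ?_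
    refine liminf_le_of_le (by isBoundedDefault) fun b hb => ?_
    obtain ⟨k, hk⟩ := hb.exists
    refine hk.trans ?_
    rw [← ofReal_integral_eq_lintegral_ofReal (hWint k)
      (Eventually.of_forall fun θ => hWnn k _ (hpt θ))]
    exact ENNReal.ofReal_le_ofReal (hWavg k)
  have hUfin : ∫⁻ θ in Ioc (-π) π, U θ ≠ ∞ := (hUint.trans_lt ENNReal.ofReal_lt_top).ne
  have hUae := ae_lt_top' hUm hUfin
  have hTU : ∀ θ, TT (Θ (pt ε θ)) ≤ U θ := fun θ =>
    TT_le_liminf (fun z hz => (contDiffAt_snd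
      (hΘ _ (hpt θ) z hz)).continuousAt.continuousWithinAt) (hΘ0 _ (hpt θ)) hρ0 hρ1 hρ
  have hUi : IntegrableOn (fun θ => (U θ).toReal) (Ioc (-π) π) :=
    integrable_toReal_of_lintegral_ne_top hUm hUfin
  have hBcont : Continuous fun θ => B (pt ε θ) := by
    rw [← continuousOn_univ]
    refine hBc.comp ?_ fun θ _ => hpt θ
    unfold pt; fun_prop
  have hBi : IntegrableOn (fun θ => B (pt ε θ)) (Ioc (-π) π) :=
    (hBcont.intervalIntegrable (-π) π).1
  have hci : ∀ a : ℝ, IntegrableOn (fun _ : ℝ => a) (Ioc (-π) π) := fun a => by simp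
  have hmono : ∫ θ in Ioc (-π) π, (B (pt ε θ) + lam * (TT (Θ 0)).toReal) ≤
      ∫ θ in Ioc (-π) π, (B 0 + lam * (U θ).toReal) := by
    refine integral_mono_ae (hBi.add (hci _)) ((hci _).add (hUi.const_mul _)) ?_
    filter_upwards [hUae] with θ hθ
    have h1 : TT (Θ (pt ε θ)) ≠ ∞ := ((hTU θ).trans_lt hθ).ne
    have h2 := hmax _ (hpt θ) h1
    have h3 : (TT (Θ (pt ε θ))).toReal ≤ (U θ).toReal := ENNReal.toReal_mono hθ.ne (hTU θ)
    have h4 := mul_le_mul_of_nonneg_left h3 hlam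
    linarith
  rw [integral_add hBi (hci _), integral_add (hci _) (hUi.const_mul _),
    integral_const_mul lam (fun θ => (U θ).toReal), integral_toReal hUm hUae] at hmono
  have hUr : (∫⁻ θ in Ioc (-π) π, U θ).toReal ≤ 2 * π * L :=
    ENNReal.toReal_le_of_le_ofReal hL0 hUint
  have hvol : ∀ a : ℝ, ∫ _ in Ioc (-π) π, a = 2 * π * a := fun a => by
    rw [setIntegral_const, smul_eq_mul]
    congr 1
    rw [measureReal_def, Real.volume_Ioc, ENNReal.toReal_ofReal (by linarith)]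
    ring
  rw [hvol, hvol] at hmono
  have hB := hBavg ε ⟨hε, hεε0⟩
  rw [circleAverage_eq_pi, intervalIntegral.integral_of_le hpi, smul_eq_mul,
    le_inv_mul_iff₀ (by positivity)] at hB
  have h5 := mul_le_mul_of_nonneg_left hUr hlam
  have h6 : 2 * π * (B 0 + ε ^ 2 * c) + 2 * π * (lam * (TT (Θ 0)).toReal) ≤
      2 * π * B 0 + lam * (2 * π * L) := by linarith
  have h7 : 2 * π * ε ^ 2 * c ≤ 2 * π * ε ^ 2 * (lam * (m + η)) := by
    rw [hL] at h6; linarith
  have h8 : c ≤ lam * (m + η) := le_of_mul_le_mul_left h7 (by positivity)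
  have h9 : lam * η ≤ η' := by
    rw [hηdef, mul_div_assoc']
    rw [div_le_iff₀ (by positivity)]
    nlinarith
  linarith

end

end Vale.Agent.P272.GJ
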