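import Vale.Agent.P272.K.Inv.Hess
import Vale.Agent.P272.GJ.Power
import Vale.Agent.P272.GJ.Second

/-!
# P272, block SV: pull-back of a Kähler form by a holomorphic map of two variables

`∂_s ∂_s̄ Θ_zz = ∂_z ∂_z̄ Θ_ss` for `Θ = F^* w`.
-/

open MeasureTheory Set Metric Complex Filter
open scoped Real Topology ContDiff ComplexOrder

set_option linter.all false

noncomputable section

namespace Vale.Agent.P272.GJ

open Vale.Agent.P272.K

section wirt
variable {E : Type*} [NormedAddCommGroup E] [NormedSpace ℂ E] {f g : E → ℂ} {p u v : E}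

/-- `∂` in the direction `u` -/
def D1 (u : E) (g : E → ℂ) (p : E) : ℂ := (fderiv ℝ g p u - I * fderiv ℝ g p (I • u)) / 2

/-- `∂̄` in the direction `u` -/
def D2 (u : E) (g : E → ℂ) (p : E) : ℂ := (fderiv ℝ g p u + I * fderiv ℝ g p (I • u)) / 2

lemma D1_congr (h : f =ᶠ[𝓝 p] g) : D1 u f p = D1 u g p := by
  unfold D1; rw [h.fderiv_eq]

lemma D2_congr (h : f =ᶠ[𝓝 p] g) : D2 u f p = D2 u g p := by
  unfold D2; rw [h.fderiv_eq]

lemma D1_add (hf : DifferentiableAt ℝ f p) (hg : DifferentiableAt ℝ g p) :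
    D1 u (fun y => f y + g y) p = D1 u f p + D1 u g p := by
  unfold D1
  rw [show (fun y => f y + g y) = f + g from rfl, fderiv_add hf hg]
  simp only [add_apply]; ring

lemma D1_mul (hf : DifferentiableAt ℝ f p) (hg : DifferentiableAt ℝ g p) :
    D1 u (fun y => f y * g y) p = D1 u f p * g p + f p * D1 u g p := by
  unfold D1
  rw [show (fun y => f y * g y) = f * g from rfl, fderiv_mul hf hg]
  simp only [add_apply, smul_apply, smul_eq_mul]; ring

lemma D1_sum {ι : Type*} (s : Finset ι) {F : ι → E → ℂ}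
    (h : ∀ a ∈ s, DifferentiableAt ℝ (F a) p) :
    D1 u (fun y => ∑ a ∈ s, F a y) p = ∑ a ∈ s, D1 u (F a) p := by
  classical
  induction s using Finset.induction_on with
  | empty => simp [D1]
  | insert a s ha ih =>
    have h1 : DifferentiableAt ℝ (fun y => ∑ b ∈ s, F b y) p :=
      DifferentiableAt.fun_sum fun b hb => h b (Finset.mem_insert_of_mem hb)
    have h2 : (fun y => ∑ b ∈ insert a s, F b y) = fun y => F a y + ∑ b ∈ s, F b y := by
      funext y; rw [Finset.sum_insert ha]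
    rw [h2, D1_add (h a (Finset.mem_insert_self a s)) h1, Finset.sum_insert ha,
      ih fun b hb => h b (Finset.mem_insert_of_mem hb)]

lemma fderiv_conj (hf : DifferentiableAt ℝ f p) (v : E) :
    fderiv ℝ (fun y => cj (f y)) p v = cj (fderiv ℝ f p v) := by
  have h : (fun y => cj (f y)) = fun y => Complex.conjCLE (f y) := by
    funext y; simp [cj]
  rw [h]
  have := (Complex.conjCLE.toContinuousLinearMap.hasFDerivAt (x := f p)).comp p hf.hasFDerivAt
  have h2 : fderiv ℝ (fun y => Complex.conjCLE (f y)) p =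
    (Complex.conjCLE.toContinuousLinearMap).comp (fderiv ℝ f p) := this.fderiv
  rw [h2]
  simp [cj]

lemma D1_conj (hf : DifferentiableAt ℝ f p) : D1 u (fun y => cj (f y)) p = cj (D2 u f p) := by
  unfold D1 D2
  rw [fderiv_conj hf, fderiv_conj hf]
  simp [cj, sub_eq_add_neg, map_ofNat]

lemma D2_conj (hf : DifferentiableAt ℝ f p) : D2 u (fun y => cj (f y)) p = cj (D1 u f p) := by
  unfold D1 D2
  rw [fderiv_conj hf, fderiv_conj hf]
  simp [cj, sub_eq_add_neg, map_ofNat]

lemma fderivR_holo {F : Type*} [NormedAddCommGroup F] [NormedSpace ℂ F] {τ : E → F}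
    (h : DifferentiableAt ℂ τ p) (v : E) : fderiv ℝ τ p v = fderiv ℂ τ p v := by
  rw [h.fderiv_restrictScalars ℝ]; rfl

lemma D1_holo (h : DifferentiableAt ℂ f p) : D1 u f p = fderiv ℂ f p u := by
  unfold D1
  rw [fderivR_holo h, fderivR_holo h, map_smul, smul_eq_mul, ← mul_assoc, I_mul_I]; ring

lemma D2_holo (h : DifferentiableAt ℂ f p) : D2 u f p = 0 := by
  unfold D2
  rw [fderivR_holo h, fderivR_holo h, map_smul, smul_eq_mul, ← mul_assoc, I_mul_I]; ring

variable {n : ℕ}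

/-- chain rule for `∂` -/
lemma D1_comp_holo {φ : Cm n → ℂ} {τ : E → Cm n} (hφ : DifferentiableAt ℝ φ (τ p))
    (hτ : DifferentiableAt ℂ τ p) :
    D1 u (fun y => φ (τ y)) p = ∑ k, dz k φ (τ p) * (fderiv ℂ τ p u) k := by
  have h1 : ∀ v, fderiv ℝ (fun y => φ (τ y)) p v = fderiv ℝ φ (τ p) (fderiv ℂ τ p v) := by
    intro v
    have h1 : DifferentiableAt ℝ τ p := hτ.restrictScalars ℝ
    rw [show (fun y => φ (τ y)) = φ ∘ τ from rfl, fderiv_comp p hφ h1]
    simp only [ContinuousLinearMap.comp_apply]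
    rw [fderivR_holo hτ]
  unfold D1
  rw [h1, h1, map_smul, fderiv_eq, fderiv_eq, Finset.mul_sum, ← Finset.sum_sub_distrib,
    Finset.sum_div]
  refine Finset.sum_congr rfl fun k _ => ?_
  simp only [Pi.smul_apply, smul_eq_mul, cj, map_mul, conj_I]
  linear_combination (-(dz k φ (τ p) * (fderiv ℂ τ p) u k) / 2 +
    dzb k φ (τ p) * (starRingEnd ℂ) ((fderiv ℂ τ p) u k) / 2) * I_mul_I

/-! second order -/

lemma D_fd (hf : ContDiffAt ℝ 2 f p) (v : E) : DifferentiableAt ℝ (fun y => fderiv ℝ f y v) p :=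
  ((hf.fderiv_right (m := 1) (by norm_num)).clm_apply contDiffAt_const).differentiableAt
    (by norm_num)

lemma fderiv2_apply (hf : ContDiffAt ℝ 2 f p) (v w : E) :
    fderiv ℝ (fun y => fderiv ℝ f y v) p w = fderiv ℝ (fderiv ℝ f) p w v := by
  have h1 : DifferentiableAt ℝ (fderiv ℝ f) p :=
    (hf.fderiv_right (m := 1) (by norm_num)).differentiableAt (by norm_num)
  rw [fderiv_clm_apply h1 (differentiableAt_const v)]
  simp

lemma fderiv2_symm (hf : ContDiffAt ℝ 2 f p) (v w : E) :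
    fderiv ℝ (fderiv ℝ f) p w v = fderiv ℝ (fderiv ℝ f) p v w :=
  (hf.isSymmSndFDerivAt (by simp)) w v

lemma fderiv_D1 (hf : ContDiffAt ℝ 2 f p) (u w : E) :
    fderiv ℝ (D1 u f) p w = (fderiv ℝ (fderiv ℝ f) p w u -
      I * fderiv ℝ (fderiv ℝ f) p w (I • u)) / 2 := by
  have h1 := (D_fd hf u).hasFDerivAt
  have h2 := (D_fd hf (I • u)).hasFDerivAt
  have h3 : HasFDerivAt (D1 u f) ((2 : ℂ)⁻¹ • (fderiv ℝ (fun y => fderiv ℝ f y u) p -
      I • fderiv ℝ (fun y => fderiv ℝ f y (I • u)) p)) p := by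
    have := (h1.sub (h2.const_smul I)).const_smul (2 : ℂ)⁻¹
    refine this.congr_of_eventuallyEq (Filter.Eventually.of_forall fun y => ?_)
    simp only [D1, Pi.smul_apply, Pi.sub_apply, smul_eq_mul]
    ring
  rw [h3.fderiv]
  simp only [smul_apply, sub_apply, smul_eq_mul]
  rw [fderiv2_apply hf, fderiv2_apply hf]
  ring

lemma fderiv_D2 (hf : ContDiffAt ℝ 2 f p) (u w : E) :
    fderiv ℝ (D2 u f) p w = (fderiv ℝ (fderiv ℝ f) p w u +
      I * fderiv ℝ (fderiv ℝ f) p w (I • u)) / 2 := by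
  have h1 := (D_fd hf u).hasFDerivAt
  have h2 := (D_fd hf (I • u)).hasFDerivAt
  have h3 : HasFDerivAt (D2 u f) ((2 : ℂ)⁻¹ • (fderiv ℝ (fun y => fderiv ℝ f y u) p +
      I • fderiv ℝ (fun y => fderiv ℝ f y (I • u)) p)) p := by
    have := (h1.add (h2.const_smul I)).const_smul (2 : ℂ)⁻¹
    refine this.congr_of_eventuallyEq (Filter.Eventually.of_forall fun y => ?_)
    simp only [D2, Pi.smul_apply, Pi.add_apply, smul_eq_mul]
    ring
  rw [h3.fderiv]
  simp only [smul_apply, add_apply, smul_eq_mul]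
  rw [fderiv2_apply hf, fderiv2_apply hf]
  ring

lemma D1_D2_comm (hf : ContDiffAt ℝ 2 f p) (u v : E) : D1 u (D2 v f) p = D2 v (D1 u f) p := by
  rw [D1, fderiv_D2 hf, fderiv_D2 hf]
  conv_rhs => rw [D2, fderiv_D1 hf, fderiv_D1 hf]
  rw [fderiv2_symm hf v u, fderiv2_symm hf (I • v) u, fderiv2_symm hf v (I • u),
    fderiv2_symm hf (I • v) (I • u)]
  ring

lemma D2_D1_self (hf : ContDiffAt ℝ 2 f p) (u : E) :
    D2 u (D1 u f) p = (fderiv ℝ (fderiv ℝ f) p u u + fderiv ℝ (fderiv ℝ f) p (I • u) (I • u)) / 4 := by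
  rw [D2, fderiv_D1 hf, fderiv_D1 hf, fderiv2_symm hf u (I • u)]
  linear_combination (-(fderiv ℝ (fderiv ℝ f) p (I • u) (I • u)) / 4) * I_mul_I

lemma fderiv2_ofReal {g : E → ℝ} (hg : ContDiffAt ℝ 2 g p) (v w : E) :
    fderiv ℝ (fderiv ℝ fun y => (g y : ℂ)) p v w = (fderiv ℝ (fderiv ℝ g) p v w : ℝ) := by
  have hG : ContDiffAt ℝ 2 (fun y => (g y : ℂ)) p := ofRealCLM.contDiff.contDiffAt.comp p hg
  rw [← fderiv2_apply hG]
  have h1 : (fun y => fderiv ℝ (fun y => (g y : ℂ)) y w) =ᶠ[𝓝 p]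
      fun y => ((fderiv ℝ g y w : ℝ) : ℂ) := by
    filter_upwards [hg.eventually (by simp)] with y hy
    have h2 : HasFDerivAt (fun y => (g y : ℂ)) (ofRealCLM.comp (fderiv ℝ g y)) y :=
      ofRealCLM.hasFDerivAt.comp y (hy.differentiableAt (by norm_num)).hasFDerivAt
    rw [h2.fderiv]; rfl
  rw [h1.fderiv_eq]
  have h3 : DifferentiableAt ℝ (fun y => fderiv ℝ g y w) p :=
    ((hg.fderiv_right (m := 1) (by norm_num)).clm_apply contDiffAt_const).differentiableAt
      (by norm_num)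
  have h4 : HasFDerivAt (fun y => ((fderiv ℝ g y w : ℝ) : ℂ))
      (ofRealCLM.comp (fderiv ℝ (fun y => fderiv ℝ g y w) p)) p :=
    ofRealCLM.hasFDerivAt.comp p h3.hasFDerivAt
  rw [h4.fderiv]
  simp only [ContinuousLinearMap.comp_apply, ofRealCLM_apply]
  congr 1
  have h5 : DifferentiableAt ℝ (fderiv ℝ g) p :=
    (hg.fderiv_right (m := 1) (by norm_num)).differentiableAt (by norm_num)
  rw [fderiv_clm_apply h5 (differentiableAt_const w)]
  simp

end wirt

/-! ### the pull-back of a Hermitian form -/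

section pull
variable {E : Type*} [NormedAddCommGroup E] [NormedSpace ℂ E] {n : ℕ}

/-- `Θ_{u v̄} = Σ w_ij(f) (∂_u f)_i conj((∂_v f)_j)` -/
def pull (w : Cm n → Matrix (Fin n) (Fin n) ℂ) (f : E → Cm n) (u v : E) (q : E) : ℂ :=
  ses (w (f q)) (fderiv ℂ f q u) (fderiv ℂ f q v)

variable {w : Cm n → Matrix (Fin n) (Fin n) ℂ} {f : E → Cm n} {p : E}

lemma pull_symm (hw : (w (f p)).IsHermitian) (u v : E) : pull w f v u p = cj (pull w f u v p) :=
  ses_symm hw _ _

lemma contDiffAt_pull (hf : ContDiffAt ℂ ω f p)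
    (hw : ∀ i j, ContDiffAt ℝ ∞ (fun y => w y i j) (f p)) (u v : E) :
    ContDiffAt ℝ ∞ (pull w f u v) p := by
  have h1 : ∀ u, ContDiffAt ℂ ω (fun q => fderiv ℂ f q u) p := fun u =>
    (hf.fderiv_right (m := ω) (by exact le_top)).clm_apply contDiffAt_const
  have h2 : ∀ u i, ContDiffAt ℝ ∞ (fun q => fderiv ℂ f q u i) p := fun u i =>
    (((contDiffAt_pi.1 (h1 u)) i).restrict_scalars ℝ).of_le le_top
  have h3 : ∀ i j, ContDiffAt ℝ ∞ (fun q => w (f q) i j) p := fun i j =>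
    ContDiffAt.comp p (hw i j) ((hf.restrict_scalars ℝ).of_le le_top)
  unfold pull ses
  refine ContDiffAt.sum fun i _ => ContDiffAt.sum fun j _ => (h3 i j).mul ((h2 u i).mul ?_)
  exact (Complex.conjCLE.contDiff.contDiffAt).comp p (h2 v j)

/-- closedness: `∂_h Θ_{u v̄} = ∂_u Θ_{h v̄}` -/
lemma D1_pull (hf : ContDiffAt ℂ ω f p)
    (hw : ∀ i j, ContDiffAt ℝ ∞ (fun y => w y i j) (f p))
    (hK : ∀ i j k, dz k (fun z => w z i j) (f p) = dz i (fun z => w z k j) (f p)) (h u v : E) :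
    D1 h (pull w f u v) p = D1 u (pull w f h v) p := by
  have hfd : DifferentiableAt ℂ f p := hf.differentiableAt (by simp)
  have h1 : ∀ u, ContDiffAt ℂ ω (fun q => fderiv ℂ f q u) p := fun u =>
    (hf.fderiv_right (m := ω) (by exact le_top)).clm_apply contDiffAt_const
  have h2 : ∀ u i, DifferentiableAt ℂ (fun q => fderiv ℂ f q u i) p := fun u i =>
    ((contDiffAt_pi.1 (h1 u)) i).differentiableAt (by simp)
  have h2r : ∀ u i, DifferentiableAt ℝ (fun q => fderiv ℂ f q u i) p := fun u i =>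
    (h2 u i).restrictScalars ℝ
  have h2c : ∀ u i, DifferentiableAt ℝ (fun q => cj (fderiv ℂ f q u i)) p := fun u i =>
    (Complex.conjCLE.differentiableAt).comp p (h2r u i)
  have hwd : ∀ i j, DifferentiableAt ℝ (fun y => w y i j) (f p) := fun i j =>
    (hw i j).differentiableAt (by simp)
  have h3 : ∀ i j, DifferentiableAt ℝ (fun q => w (f q) i j) p := fun i j =>
    (hwd i j).comp p (hfd.restrictScalars ℝ)
  have hsymm : ∀ i, fderiv ℂ (fun q => fderiv ℂ f q u i) p h =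
      fderiv ℂ (fun q => fderiv ℂ f q h i) p u := by
    intro i
    have hd : DifferentiableAt ℂ (fderiv ℂ f) p :=
      (hf.fderiv_right (m := ω) (by exact le_top)).differentiableAt (by simp)
    have h4 : ∀ a b : E, fderiv ℂ (fun q => fderiv ℂ f q a i) p b =
        (fderiv ℂ (fderiv ℂ f) p b a) i := by
      intro a b
      have h5 : DifferentiableAt ℂ (fun q => fderiv ℂ f q a) p := (h1 a).differentiableAt (by simp)
      have h6 := fderiv_apply h5 i
      rw [h6]
      simp only [ContinuousLinearMap.comp_apply, ContinuousLinearMap.proj_apply]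
      rw [fderiv_clm_apply hd (differentiableAt_const a)]
      simp
    rw [h4, h4]
    have := (hf.isSymmSndFDerivAt (by simp)) h u
    rw [this]
  have key : ∀ h u, D1 h (pull w f u v) p = ∑ i, ∑ j, ((∑ k, dz k (fun z => w z i j) (f p) *
      (fderiv ℂ f p h) k) * ((fderiv ℂ f p u) i * cj ((fderiv ℂ f p v) j)) +
      w (f p) i j * (fderiv ℂ (fun q => fderiv ℂ f q u i) p h * cj ((fderiv ℂ f p v) j))) := by
    intro h u
    have e1 : pull w f u v = fun q => ∑ i, ∑ j, w (f q) i j * ((fderiv ℂ f q u i) *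
        cj (fderiv ℂ f q v j)) := rfl
    have d1 : ∀ i j, DifferentiableAt ℝ (fun q => w (f q) i j * ((fderiv ℂ f q u i) *
        cj (fderiv ℂ f q v j))) p := fun i j => (h3 i j).mul ((h2r u i).mul (h2c v j))
    rw [e1, D1_sum _ fun i _ => DifferentiableAt.fun_sum fun j _ => d1 i j]
    refine Finset.sum_congr rfl fun i _ => ?_
    rw [D1_sum _ fun j _ => d1 i j]
    refine Finset.sum_congr rfl fun j _ => ?_
    have d2 : DifferentiableAt ℝ (fun q => (fderiv ℂ f q u i) * cj (fderiv ℂ f q v j)) p :=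
      (h2r u i).mul (h2c v j)
    rw [D1_mul (h3 i j) d2, D1_mul (h2r u i) (h2c v j),
      D1_comp_holo (φ := fun z => w z i j) (hwd i j) hfd, D1_holo (h2 u i),
      D1_conj (h2r v j), D2_holo (h2 v j)]
    simp only [cj, map_zero, mul_zero, add_zero]
  rw [key h u, key u h]
  simp only [Finset.sum_add_distrib]
  congr 1
  · have e2 : ∀ h u : E, ∑ i, ∑ j, (∑ k, dz k (fun z => w z i j) (f p) * (fderiv ℂ f p h) k) *
        ((fderiv ℂ f p u) i * cj ((fderiv ℂ f p v) j)) =
        ∑ j, ∑ i, ∑ k, dz k (fun z => w z i j) (f p) * (fderiv ℂ f p h) k *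
        ((fderiv ℂ f p u) i * cj ((fderiv ℂ f p v) j)) := by
      intro h u
      rw [Finset.sum_comm]
      refine Finset.sum_congr rfl fun j _ => Finset.sum_congr rfl fun i _ => ?_
      rw [Finset.sum_mul]
    rw [e2, e2]
    refine Finset.sum_congr rfl fun j _ => ?_
    rw [Finset.sum_comm]
    refine Finset.sum_congr rfl fun k _ => Finset.sum_congr rfl fun i _ => ?_
    rw [hK i j k]
    ring
  · refine Finset.sum_congr rfl fun i _ => Finset.sum_congr rfl fun j _ => ?_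
    rw [hsymm i]

/-- the conjugate form of closedness: `∂̄_h Θ_{u v̄} = ∂̄_v Θ_{u h̄}` -/
lemma D2_pull (hf : ContDiffAt ℂ ω f p)
    (hw : ∀ i j, ContDiffAt ℝ ∞ (fun y => w y i j) (f p))
    (hh : ∀ᶠ y in 𝓝 (f p), (w y).IsHermitian)
    (hK : ∀ i j k, dz k (fun z => w z i j) (f p) = dz i (fun z => w z k j) (f p)) (h u v : E) :
    D2 h (pull w f u v) p = D2 v (pull w f u h) p := by
  have hc : ContinuousAt f p := hf.continuousAt
  have e1 : ∀ u v, pull w f u v =ᶠ[𝓝 p] fun q => cj (pull w f v u q) := by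
    intro u v
    filter_upwards [hc.eventually hh] with q hq
    exact pull_symm hq v u
  have hd : ∀ u v, DifferentiableAt ℝ (pull w f u v) p := fun u v =>
    (contDiffAt_pull hf hw u v).differentiableAt (by simp)
  rw [D2_congr (e1 u v), D2_congr (e1 u h), D2_conj (hd v u), D2_conj (hd h u),
    D1_pull hf hw hK h v u]

/-- **`∂_s ∂_s̄ Θ_zz = ∂_z ∂_z̄ Θ_ss`** -/
theorem pull_identity (hf : ContDiffAt ℂ ω f p)
    (hw : ∀ᶠ y in 𝓝 (f p), ∀ i j, ContDiffAt ℝ ∞ (fun y => w y i j) y)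
    (hh : ∀ᶠ y in 𝓝 (f p), (w y).IsHermitian)
    (hK : ∀ᶠ y in 𝓝 (f p), ∀ i j k, dz k (fun z => w z i j) y = dz i (fun z => w z k j) y)
    (s z : E) : D2 s (D1 s (pull w f z z)) p = D2 z (D1 z (pull w f s s)) p := by
  have hc : ContinuousAt f p := hf.continuousAt
  have hfe : ∀ᶠ q in 𝓝 p, ContDiffAt ℂ ω f q := hf.eventually (by simp)
  have e1 : ∀ h u v, D1 h (pull w f u v) =ᶠ[𝓝 p] D1 u (pull w f h v) := by
    intro h u v
    filter_upwards [hfe, hc.eventually hw, hc.eventually hK] with q h1 h2 h3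
    exact D1_pull h1 h2 h3 h u v
  have e2 : ∀ h u v, D2 h (pull w f u v) =ᶠ[𝓝 p] D2 v (pull w f u h) := by
    intro h u v
    filter_upwards [hfe, hc.eventually hw, hc.eventually hh.eventually_nhds, hc.eventually hK]
      with q h1 h2 h3 h4
    exact D2_pull h1 h2 h3 h4 h u v
  have hcd : ∀ u v, ContDiffAt ℝ 2 (pull w f u v) p := fun u v =>
    (contDiffAt_pull hf hw.self_of_nhds u v).of_le (by
      rw [show (2 : WithTop ℕ∞) = ((2 : ℕ∞) : WithTop ℕ∞) from rfl]; exact_mod_cast le_top)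
  rw [D2_congr (e1 s z z), ← D1_D2_comm (hcd s z), D1_congr (e2 s s z), D1_D2_comm (hcd s s)]

end pull

end Vale.Agent.P272.GJ
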