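import Vale.Agent.P272.GJ.Second

/-!
# P272, block SV for the main line: the kernel `(r² - |z|²)/π`

`∫_{|z|<r} (r²-|z|²)/π ∂∂̄φ = r² avg_{|z|=r} φ - (1/π) ∫_{|z|<r} φ`, the second variation with this
kernel, and the resulting inequality.
-/

open MeasureTheory Set Metric Complex Filter
open scoped Real Topology ENNReal

set_option linter.all false

noncomputable section

namespace Vale.Agent.P272.GJ

/-- the kernel `(r² - |z|²)/π` -/
def Kr (r : ℝ) (z : ℂ) : ℝ := (r ^ 2 - ‖z‖ ^ 2) / π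

lemma Kr_nonneg {r : ℝ} {z : ℂ} (hz : z ∈ ball (0 : ℂ) r) : 0 ≤ Kr r z := by
  rw [mem_ball, dist_zero_right] at hz
  have := norm_nonneg z
  unfold Kr
  have : ‖z‖ ^ 2 ≤ r ^ 2 := by gcongr
  have := Real.pi_pos
  exact div_nonneg (by linarith) (by linarith)

lemma Kr_mono {r r' : ℝ} (hr : 0 ≤ r) (h : r ≤ r') (z : ℂ) : Kr r z ≤ Kr r' z := by
  unfold Kr
  have := Real.pi_pos
  gcongr

lemma continuous_Kr (r : ℝ) : Continuous (Kr r) := by unfold Kr; fun_prop

lemma continuous_Kr' (z : ℂ) : Continuous fun r => Kr r z := by unfold Kr; fun_prop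

lemma integrableOn_Kr (r : ℝ) : IntegrableOn (Kr r) (ball (0 : ℂ) r) :=
  ((continuous_Kr r).continuousOn.integrableOn_compact (isCompact_closedBall 0 r)).mono_set
    ball_subset_closedBall

lemma integrableOn_Kr_mul {r : ℝ} {F : ℂ → ℝ} (hF : ContinuousOn F (closedBall 0 r)) :
    IntegrableOn (fun z => Kr r z * F z) (ball (0 : ℂ) r) :=
  (((continuous_Kr r).continuousOn.mul hF).integrableOn_compact
    (isCompact_closedBall 0 r)).mono_set ball_subset_closedBall

/-- the polynomial Green-Jensen functional `r² avg_{|z|=r} φ - (1/π) ∫_{|z|<r} φ` -/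
def JJ (φ : ℂ → ℝ) (r : ℝ) : ℝ := r ^ 2 * Real.circleAverage φ 0 r - (1 / π) * ∫ z in ball (0 : ℂ) r, φ z

section
variable {φ : ℂ → ℝ} {r : ℝ}

lemma radial_poly (hr : 0 < r) (hφ : ∀ z ∈ closedBall (0 : ℂ) r, ContDiffAt ℝ 2 φ z) (θ : ℝ) :
    ∫ ρ in (0 : ℝ)..r, ((r ^ 2 - ρ ^ 2) * (fderiv ℝ φ (pt ρ θ) (exp (θ * I)) +
      ρ * fderiv ℝ (fderiv ℝ φ) (pt ρ θ) (exp (θ * I)) (exp (θ * I))) + 4 * ρ * φ (pt ρ θ)) =
      2 * r ^ 2 * φ (pt r θ) := by
  set e : ℂ := exp (θ * I) with he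
  have hmaps : MapsTo (fun ρ => pt ρ θ) (Icc 0 r) (closedBall (0 : ℂ) r) := fun ρ hρ =>
    pt_mem hρ.1 hρ.2 θ
  have hcpt : Continuous fun ρ => pt ρ θ := by unfold pt; fun_prop
  have c0 : ContinuousOn (fun ρ => φ (pt ρ θ)) (Icc 0 r) :=
    (contOn0 hφ).comp hcpt.continuousOn hmaps
  have c1 : ContinuousOn (fun ρ => fderiv ℝ φ (pt ρ θ)) (Icc 0 r) :=
    (contOn1 hφ).comp hcpt.continuousOn hmaps
  have c2 : ContinuousOn (fun ρ => fderiv ℝ (fderiv ℝ φ) (pt ρ θ)) (Icc 0 r) :=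
    (contOn2 hφ).comp hcpt.continuousOn hmaps
  set h : ℝ → ℝ := fun ρ => ((r ^ 2 - ρ ^ 2) * ρ) * fderiv ℝ φ (pt ρ θ) e +
    2 * ρ ^ 2 * φ (pt ρ θ) with hh
  have hcont : ContinuousOn h (Icc 0 r) := by
    have t1 : Continuous fun ρ : ℝ => (r ^ 2 - ρ ^ 2) * ρ := by fun_prop
    have t2 : Continuous fun ρ : ℝ => 2 * ρ ^ 2 := by fun_prop
    exact (t1.continuousOn.mul (c1.clm_apply continuousOn_const)).add (t2.continuousOn.mul c0)
  have hder : ∀ ρ ∈ Ioo 0 r, HasDerivAt h ((r ^ 2 - ρ ^ 2) * (fderiv ℝ φ (pt ρ θ) e +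
      ρ * fderiv ℝ (fderiv ℝ φ) (pt ρ θ) e e) + 4 * ρ * φ (pt ρ θ)) ρ := by
    intro ρ hρ
    have hz := hφ _ (hmaps ⟨hρ.1.le, hρ.2.le⟩)
    have d0 : HasDerivAt (fun ρ => φ (pt ρ θ)) (fderiv ℝ φ (pt ρ θ) e) ρ :=
      (hz.differentiableAt (by norm_num)).hasFDerivAt.comp_hasDerivAt ρ (hasDerivAt_pt ρ θ)
    have h1 : DifferentiableAt ℝ (fderiv ℝ φ) (pt ρ θ) :=
      (hz.fderiv_right (m := 1) (by norm_num)).differentiableAt (by norm_num)
    have d1' : HasDerivAt (fun ρ => fderiv ℝ φ (pt ρ θ)) (fderiv ℝ (fderiv ℝ φ) (pt ρ θ) e) ρ :=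
      h1.hasFDerivAt.comp_hasDerivAt ρ (hasDerivAt_pt ρ θ)
    have d1 : HasDerivAt (fun ρ => fderiv ℝ φ (pt ρ θ) e)
        (fderiv ℝ (fderiv ℝ φ) (pt ρ θ) e e) ρ := by
      simpa using d1'.clm_apply (hasDerivAt_const ρ e)
    have dk : HasDerivAt (fun ρ : ℝ => (r ^ 2 - ρ ^ 2) * ρ) (r ^ 2 - 3 * ρ ^ 2) ρ := by
      have a1 : HasDerivAt (fun ρ : ℝ => r ^ 2 - ρ ^ 2) (-(2 * ρ)) ρ := by
        simpa using (hasDerivAt_pow 2 ρ).const_sub (r ^ 2)
      refine (a1.mul (hasDerivAt_id ρ)).congr_deriv ?_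
      simp only [id]; ring
    have dk2 : HasDerivAt (fun ρ : ℝ => 2 * ρ ^ 2) (4 * ρ) ρ := by
      refine ((hasDerivAt_pow 2 ρ).const_mul 2).congr_deriv ?_
      norm_num; ring
    refine ((dk.mul d1).add (dk2.mul d0)).congr_deriv ?_
    ring
  have hint : IntervalIntegrable (fun ρ => (r ^ 2 - ρ ^ 2) * (fderiv ℝ φ (pt ρ θ) e +
      ρ * fderiv ℝ (fderiv ℝ φ) (pt ρ θ) e e) + 4 * ρ * φ (pt ρ θ)) volume 0 r := by
    refine ContinuousOn.intervalIntegrable ?_
    rw [uIcc_of_le hr.le]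
    have t1 : Continuous fun ρ : ℝ => r ^ 2 - ρ ^ 2 := by fun_prop
    have t2 : Continuous fun ρ : ℝ => 4 * ρ := by fun_prop
    exact (t1.continuousOn.mul ((c1.clm_apply continuousOn_const).add
      (continuousOn_id.mul ((c2.clm_apply continuousOn_const).clm_apply continuousOn_const)))).add
      (t2.continuousOn.mul c0)
  rw [intervalIntegral.integral_eq_sub_of_hasDerivAt_of_le hr.le hcont hder hint]
  simp [hh]

/-- **Green-Jensen with the polynomial kernel** -/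
theorem green_poly (hr : 0 < r) (hφ : ∀ z ∈ closedBall (0 : ℂ) r, ContDiffAt ℝ 2 φ z) :
    ∫ z in ball (0 : ℂ) r, Kr r z * ddb φ z = JJ φ r := by
  set e : ℝ → ℂ := fun θ => exp (θ * I) with he
  have hce : Continuous e := by fun_prop
  set A : ℝ × ℝ → ℝ := fun p => fderiv ℝ φ (pt p.1 p.2) (e p.2) with hA
  set B : ℝ × ℝ → ℝ := fun p => fderiv ℝ (fderiv ℝ φ) (pt p.1 p.2) (e p.2) (e p.2) with hB
  set C : ℝ × ℝ → ℝ := fun p => fderiv ℝ (fderiv ℝ φ) (pt p.1 p.2) (I * e p.2) (I * e p.2) with hC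
  have c0 := contOn_pt_prod (contOn0 hφ)
  have c1 := contOn_pt_prod (contOn1 hφ)
  have c2 := contOn_pt_prod (contOn2 hφ)
  have ce2 : Continuous fun p : ℝ × ℝ => e p.2 := hce.comp continuous_snd
  have cA : ContinuousOn A (Icc 0 r ×ˢ Icc (-π) π) := c1.clm_apply ce2.continuousOn
  have cB : ContinuousOn B (Icc 0 r ×ˢ Icc (-π) π) :=
    (c2.clm_apply ce2.continuousOn).clm_apply ce2.continuousOn
  have cC : ContinuousOn C (Icc 0 r ×ˢ Icc (-π) π) :=
    (c2.clm_apply (continuous_const.mul ce2).continuousOn).clm_apply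
      (continuous_const.mul ce2).continuousOn
  have ck : Continuous fun p : ℝ × ℝ => r ^ 2 - p.1 ^ 2 := by fun_prop
  have ck4 : Continuous fun p : ℝ × ℝ => 4 * p.1 := by fun_prop
  have hcomp : IsCompact (Icc (0:ℝ) r ×ˢ Icc (-π) π) := isCompact_Icc.prod isCompact_Icc
  have hsub : Ioo (0:ℝ) r ×ˢ Ioo (-π) π ⊆ Icc 0 r ×ˢ Icc (-π) π :=
    prod_mono Ioo_subset_Icc_self Ioo_subset_Icc_self
  have i1 : IntegrableOn (fun p : ℝ × ℝ => (r ^ 2 - p.1 ^ 2) * (A p + p.1 * B p) +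
      4 * p.1 * φ (pt p.1 p.2)) (Ioo 0 r ×ˢ Ioo (-π) π) (volume.prod volume) :=
    (((ck.continuousOn.mul (cA.add (continuousOn_fst.mul cB))).add
      (ck4.continuousOn.mul c0)).integrableOn_compact hcomp).mono_set hsub
  have i2 : IntegrableOn (fun p : ℝ × ℝ => (r ^ 2 - p.1 ^ 2) * (p.1 * C p - A p))
      (Ioo 0 r ×ˢ Ioo (-π) π) (volume.prod volume) :=
    ((ck.continuousOn.mul ((continuousOn_fst.mul cC).sub cA)).integrableOn_compact hcomp).mono_set
      hsub
  have hms : MeasurableSet (Ioo (0:ℝ) r ×ˢ Ioo (-π) π) := measurableSet_Ioo.prod measurableSet_Ioo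
  have key : ∀ p ∈ Ioo (0:ℝ) r ×ˢ Ioo (-π) π,
      p.1 • (Kr r (pt p.1 p.2) * ddb φ (pt p.1 p.2) + (1 / π) * φ (pt p.1 p.2)) =
      (4 * π)⁻¹ * (((r ^ 2 - p.1 ^ 2) * (A p + p.1 * B p) + 4 * p.1 * φ (pt p.1 p.2)) +
        (r ^ 2 - p.1 ^ 2) * (p.1 * C p - A p)) := by
    intro p hp
    have hz := hφ _ (pt_mem hp.1.1.le hp.1.2.le p.2)
    have h4 := ddb_eq_rot hz p.2
    rw [smul_eq_mul, Kr, norm_pt, abs_of_pos hp.1.1]
    simp only [hA, hB, hC, he]
    have hpi : (π : ℝ) ≠ 0 := Real.pi_ne_zero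
    field_simp
    linear_combination ((r ^ 2 - p.1 ^ 2) * p.1) * h4
  have hpi : -π ≤ π := by linarith [Real.pi_pos]
  have hpi0 : (π : ℝ) ≠ 0 := Real.pi_ne_zero
  have hsum : ∫ z in ball (0 : ℂ) r, (Kr r z * ddb φ z + (1 / π) * φ z) =
      r ^ 2 * Real.circleAverage φ 0 r := by
    rw [setIntegral_ball_polar, setIntegral_congr_fun hms key]
    rw [Measure.volume_eq_prod, integral_const_mul, integral_add i1 i2]
    have z2 : ∫ p in Ioo (0:ℝ) r ×ˢ Ioo (-π) π, (r ^ 2 - p.1 ^ 2) * (p.1 * C p - A p)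
        ∂(volume.prod volume) = 0 := by
      rw [setIntegral_prod _ i2]
      refine (setIntegral_congr_fun measurableSet_Ioo (g := fun _ => (0:ℝ)) fun ρ hρ => ?_).trans
        (by simp)
      have h := angular hφ hρ.1.le hρ.2.le
      rw [intervalIntegral.integral_of_le hpi, integral_Ioc_eq_integral_Ioo] at h
      simp only [hA, hC, he]
      rw [integral_const_mul, h, mul_zero]
    have z1 : ∫ p in Ioo (0:ℝ) r ×ˢ Ioo (-π) π, ((r ^ 2 - p.1 ^ 2) * (A p + p.1 * B p) +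
        4 * p.1 * φ (pt p.1 p.2)) ∂(volume.prod volume) =
        ∫ θ in (-π)..π, 2 * r ^ 2 * φ (pt r θ) := by
      rw [← setIntegral_prod_swap, setIntegral_prod]
      · rw [intervalIntegral.integral_of_le hpi, integral_Ioc_eq_integral_Ioo]
        refine setIntegral_congr_fun measurableSet_Ioo fun θ _ => ?_
        have h := radial_poly hr hφ θ
        rw [intervalIntegral.integral_of_le hr.le, integral_Ioc_eq_integral_Ioo] at h
        exact h
      · have := i1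
        unfold IntegrableOn at this ⊢
        rw [← Measure.prod_restrict] at this ⊢
        exact this.swap
    rw [z1, z2, add_zero, circleAverage_eq_pi, intervalIntegral.integral_const_mul]
    simp only [smul_eq_mul]
    field_simp
    ring
  rw [integral_add (integrableOn_Kr_mul (contOn_ddb hφ)) (((contOn0 hφ).integrableOn_compact
    (isCompact_closedBall 0 r)).mono_set ball_subset_closedBall |>.const_mul _),
    integral_const_mul] at hsum
  rw [JJ]
  linarith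

end

/-! ### the integrated second variation with the polynomial kernel -/

section
variable {Θ Ξ : ℂ → ℂ → ℝ} {ε r : ℝ}

lemma circleAverage_poly_swap (hε : 0 ≤ ε) {H : ℂ → ℂ → ℝ} {k : ℂ → ℝ}
    (hk : ContinuousOn k (closedBall 0 r))
    (hH : ContinuousOn (fun p : ℂ × ℂ => H p.1 p.2) (closedBall 0 ε ×ˢ closedBall 0 r)) :
    Real.circleAverage (fun s => ∫ z in ball (0 : ℂ) r, k z * H s z) 0 ε =
      ∫ z in ball (0 : ℂ) r, k z * Real.circleAverage (fun s => H s z) 0 ε := by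
  have hpi : -π ≤ π := by linarith [Real.pi_pos]
  simp_rw [circleAverage_eq_pi, intervalIntegral.integral_of_le hpi, smul_eq_mul]
  have hcont : ContinuousOn (fun p : ℝ × ℂ => H (pt ε p.1) p.2) (Icc (-π) π ×ˢ closedBall 0 r) := by
    refine hH.comp (t := closedBall 0 ε ×ˢ closedBall 0 r) (f := fun p : ℝ × ℂ => (pt ε p.1, p.2))
      ?_ fun p hp => ⟨pt_mem hε le_rfl _, hp.2⟩
    have : Continuous fun p : ℝ × ℂ => (pt ε p.1, p.2) := by unfold pt; fun_prop
    exact this.continuousOn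
  have hki : IntegrableOn k (ball (0 : ℂ) r) :=
    (hk.integrableOn_compact (isCompact_closedBall 0 r)).mono_set ball_subset_closedBall
  have hint := integrable_mul_cont (μ := volume) (ν := volume) (f := fun _ : ℝ => (1 : ℝ))
    (A := Ioc (-π) π) (g := k) (by simp) hki measurableSet_Ioc
    measurableSet_ball isCompact_Icc (isCompact_closedBall 0 r) Ioc_subset_Icc_self
    ball_subset_closedBall hcont
  simp only [one_mul] at hint
  rw [integral_integral_swap hint, ← integral_const_mul]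
  refine integral_congr_ae (Eventually.of_forall fun z => ?_)
  simp only
  rw [integral_const_mul]
  ring

lemma contOn_circleAverage_fst (hε : 0 ≤ ε)
    (cΘ : ContinuousOn (fun p : ℂ × ℂ => Θ p.1 p.2) (closedBall 0 ε ×ˢ closedBall 0 r)) :
    ContinuousOn (fun z => Real.circleAverage (fun s => Θ s z) 0 ε) (closedBall 0 r) := by
  refine contOn_circleAverage (H := fun z s => Θ s z) hε ?_
  exact cΘ.comp (f := fun p : ℂ × ℂ => (p.2, p.1)) (by fun_prop) fun p hp => ⟨hp.2, hp.1⟩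

/-- **the integrated second variation formula**, kernel `(r²-|z|²)/π` -/
theorem second_poly (hε : 0 < ε) (hr : 0 < r)
    (hΘ : ∀ s ∈ closedBall (0 : ℂ) ε, ∀ z ∈ closedBall (0 : ℂ) r,
      ContDiffAt ℝ 2 (fun p : ℂ × ℂ => Θ p.1 p.2) (s, z))
    (hΞ : ∀ s ∈ closedBall (0 : ℂ) ε, ∀ z ∈ closedBall (0 : ℂ) r,
      ContDiffAt ℝ 2 (fun p : ℂ × ℂ => Ξ p.1 p.2) (s, z))
    (hid : ∀ s ∈ ball (0 : ℂ) ε, ∀ z ∈ ball (0 : ℂ) r, ddb (fun s => Θ s z) s = ddb (Ξ s) z) :
    Real.circleAverage (fun s => ∫ z in ball (0 : ℂ) r, Kr r z * Θ s z) 0 ε -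
        ∫ z in ball (0 : ℂ) r, Kr r z * Θ 0 z =
      ∫ s in ball (0 : ℂ) ε, Gr ε s * JJ (Ξ s) r := by
  have cΘ : ContinuousOn (fun p : ℂ × ℂ => Θ p.1 p.2) (closedBall 0 ε ×ˢ closedBall 0 r) :=
    fun p hp => (hΘ p.1 hp.1 p.2 hp.2).continuousAt.continuousWithinAt
  have cD : ContinuousOn (fun p : ℂ × ℂ => ddb (Ξ p.1) p.2) (closedBall 0 ε ×ˢ closedBall 0 r) :=
    contOn_ddb_snd (Θ := Ξ) fun p hp => hΞ p.1 hp.1 p.2 hp.2
  have h0ε : (0 : ℂ) ∈ closedBall (0 : ℂ) ε := mem_closedBall_self hε.le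
  have hI1 : IntegrableOn (fun z => Kr r z * Real.circleAverage (fun s => Θ s z) 0 ε)
      (ball (0 : ℂ) r) := integrableOn_Kr_mul (contOn_circleAverage_fst hε.le cΘ)
  have hI2 : IntegrableOn (fun z => Kr r z * Θ 0 z) (ball (0 : ℂ) r) :=
    integrableOn_Kr_mul fun z hz =>
      (contDiffAt_snd (hΘ 0 h0ε z hz)).continuousAt.continuousWithinAt
  rw [circleAverage_poly_swap hε.le (continuous_Kr r).continuousOn cΘ, ← integral_sub hI1 hI2]
  have hint := integrable_mul_cont (μ := volume) (ν := volume) (f := Gr ε) (g := Kr r)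
    (integrableOn_Gr hε) (integrableOn_Kr r) measurableSet_ball
    measurableSet_ball (isCompact_closedBall 0 ε) (isCompact_closedBall 0 r)
    ball_subset_closedBall ball_subset_closedBall cD
  have e1 : ∀ z ∈ ball (0 : ℂ) r, Kr r z * Real.circleAverage (fun s => Θ s z) 0 ε -
      Kr r z * Θ 0 z = ∫ s in ball (0 : ℂ) ε, Gr ε s * Kr r z * ddb (Ξ s) z := by
    intro z hz
    have h1 := green_jensen (φ := fun s => Θ s z) hε
      fun s hs => contDiffAt_fst (hΘ s hs z (ball_subset_closedBall hz))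
    rw [← mul_sub, ← h1, ← integral_const_mul]
    refine setIntegral_congr_fun measurableSet_ball fun s hs => ?_
    rw [hid s hs z hz]
    ring
  have e2 : ∀ s ∈ ball (0 : ℂ) ε, Gr ε s * JJ (Ξ s) r =
      ∫ z in ball (0 : ℂ) r, Gr ε s * Kr r z * ddb (Ξ s) z := by
    intro s hs
    have h1 := green_poly (φ := Ξ s) hr
      fun z hz => contDiffAt_snd (hΞ s (ball_subset_closedBall hs) z hz)
    rw [← h1, ← integral_const_mul]
    refine setIntegral_congr_fun measurableSet_ball fun z hz => ?_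
    ring
  rw [setIntegral_congr_fun measurableSet_ball e1, setIntegral_congr_fun measurableSet_ball e2]
  exact (integral_integral_swap hint).symm

lemma contOn_setIntegral {H : ℂ → ℂ → ℝ}
    (hH : ContinuousOn (fun p : ℂ × ℂ => H p.1 p.2) (closedBall 0 ε ×ˢ closedBall 0 r)) :
    ContinuousOn (fun s => ∫ z in ball (0 : ℂ) r, H s z) (closedBall 0 ε) := by
  intro s0 hs0
  obtain ⟨C, hC⟩ := ((isCompact_closedBall (0 : ℂ) ε).prod
    (isCompact_closedBall (0 : ℂ) r)).exists_bound_of_continuousOn hH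
  refine continuousWithinAt_of_dominated (bound := fun _ => C) ?_ ?_ ?_ ?_
  · filter_upwards [self_mem_nhdsWithin] with s hs
    have : ContinuousOn (fun z => H s z) (closedBall 0 r) :=
      hH.comp (f := fun z : ℂ => (s, z)) (by fun_prop) fun z hz => ⟨hs, hz⟩
    exact (this.mono ball_subset_closedBall).aestronglyMeasurable measurableSet_ball
  · filter_upwards [self_mem_nhdsWithin] with s hs
    filter_upwards [ae_restrict_mem measurableSet_ball] with z hz
    exact hC (s, z) ⟨hs, ball_subset_closedBall hz⟩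
  · exact integrableOn_const measure_ball_lt_top.ne
  · filter_upwards [ae_restrict_mem measurableSet_ball] with z hz
    have : ContinuousOn (fun s => H s z) (closedBall 0 ε) :=
      hH.comp (f := fun s : ℂ => (s, z)) (by fun_prop) fun s hs => ⟨hs, ball_subset_closedBall hz⟩
    exact this s0 hs0

lemma contOn_JJ (hr : 0 ≤ r) {H : ℂ → ℂ → ℝ}
    (hH : ContinuousOn (fun p : ℂ × ℂ => H p.1 p.2) (closedBall 0 ε ×ˢ closedBall 0 r)) :
    ContinuousOn (fun s => JJ (H s) r) (closedBall 0 ε) := by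
  unfold JJ
  exact (continuousOn_const.mul (contOn_circleAverage hr hH)).sub
    (continuousOn_const.mul (contOn_setIntegral hH))

end

end Vale.Agent.P272.GJ
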