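import Vale.Agent.P272.GJ.Poly
import Mathlib.MeasureTheory.Measure.Haar.NormedSpace
import Mathlib.MeasureTheory.Measure.Lebesgue.VolumeOfBalls

/-!
# P272, main line: the second variation inequality with the kernel `(1 - |z|²)/π`
-/

open MeasureTheory Set Metric Complex Filter
open scoped Real Topology ENNReal

set_option linter.all false

noncomputable section

namespace Vale.Agent.P272.GJ

/-- `T = ∫_D (1-|z|²)/π θ dA` -/
def TP (θ : ℂ → ℝ) : ℝ≥0∞ := ∫⁻ z in ball (0 : ℂ) 1, ENNReal.ofReal ((1 - ‖z‖ ^ 2) / π * θ z)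

lemma Kr_one (z : ℂ) : Kr 1 z = (1 - ‖z‖ ^ 2) / π := by simp [Kr]

lemma ofReal_integral_Kr {r : ℝ} {θ : ℂ → ℝ} (hc : ContinuousOn θ (closedBall 0 r))
    (h0 : ∀ z ∈ ball (0 : ℂ) r, 0 ≤ θ z) :
    ENNReal.ofReal (∫ z in ball (0 : ℂ) r, Kr r z * θ z) =
      ∫⁻ z in ball (0 : ℂ) r, ENNReal.ofReal (Kr r z * θ z) := by
  refine ofReal_integral_eq_lintegral_ofReal (integrableOn_Kr_mul hc) ?_
  filter_upwards [ae_restrict_mem measurableSet_ball] with z hz
  exact mul_nonneg (Kr_nonneg hz) (h0 z hz)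

lemma ofReal_TPr_le {r : ℝ} (hr : 0 < r) (hr1 : r < 1) {θ : ℂ → ℝ}
    (hc : ContinuousOn θ (ball 0 1)) (h0 : ∀ z ∈ ball (0 : ℂ) 1, 0 ≤ θ z) :
    ENNReal.ofReal (∫ z in ball (0 : ℂ) r, Kr r z * θ z) ≤ TP θ := by
  have hsub : ball (0 : ℂ) r ⊆ ball 0 1 := ball_subset_ball hr1.le
  rw [ofReal_integral_Kr (hc.mono (closedBall_subset_ball hr1)) fun z hz => h0 z (hsub hz)]
  calc ∫⁻ z in ball (0 : ℂ) r, ENNReal.ofReal (Kr r z * θ z)
      ≤ ∫⁻ z in ball (0 : ℂ) r, ENNReal.ofReal ((1 - ‖z‖ ^ 2) / π * θ z) := by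
        refine setLIntegral_mono' measurableSet_ball fun z hz => ENNReal.ofReal_le_ofReal ?_
        rw [← Kr_one]
        exact mul_le_mul_of_nonneg_right (Kr_mono hr.le hr1.le z) (h0 z (hsub hz))
    _ ≤ TP θ := lintegral_mono_set hsub

lemma TP_le_liminf {θ : ℂ → ℝ} (hc : ContinuousOn θ (ball 0 1))
    (h0 : ∀ z ∈ ball (0 : ℂ) 1, 0 ≤ θ z) {ρ : ℕ → ℝ} (hρ1 : ∀ k, ρ k < 1)
    (hρ : Tendsto ρ atTop (𝓝 1)) :
    TP θ ≤ liminf (fun k => ENNReal.ofReal (∫ z in ball (0 : ℂ) (ρ k), Kr (ρ k) z * θ z)) atTop := by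
  set f : ℕ → ℂ → ℝ≥0∞ := fun k => (ball (0 : ℂ) (ρ k)).indicator
    fun z => ENNReal.ofReal (Kr (ρ k) z * θ z) with hf
  have h1 : ∀ k, ENNReal.ofReal (∫ z in ball (0 : ℂ) (ρ k), Kr (ρ k) z * θ z) =
      ∫⁻ z in ball (0 : ℂ) 1, f k z := by
    intro k
    have hsub : ball (0 : ℂ) (ρ k) ⊆ ball 0 1 := ball_subset_ball (hρ1 k).le
    rw [ofReal_integral_Kr (hc.mono (closedBall_subset_ball (hρ1 k)))
      fun z hz => h0 z (hsub hz), hf, setLIntegral_indicator measurableSet_ball,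
      inter_eq_left.2 hsub]
  simp_rw [h1]
  have hm : ∀ k, AEMeasurable (f k) (volume.restrict (ball (0 : ℂ) 1)) := by
    intro k
    refine AEMeasurable.indicator ?_ measurableSet_ball
    exact ((continuous_Kr _).measurable.aemeasurable.mul
      (hc.aemeasurable measurableSet_ball)).ennreal_ofReal
  refine le_trans ?_ (lintegral_liminf_le' hm)
  refine setLIntegral_mono' measurableSet_ball fun z hz => ?_
  have ht : Tendsto (fun k => f k z) atTop (𝓝 (ENNReal.ofReal ((1 - ‖z‖ ^ 2) / π * θ z))) := by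
    have h2 : Tendsto (fun k => ENNReal.ofReal (Kr (ρ k) z * θ z)) atTop
        (𝓝 (ENNReal.ofReal ((1 - ‖z‖ ^ 2) / π * θ z))) := by
      refine ENNReal.tendsto_ofReal (Tendsto.mul_const _ ?_)
      rw [← Kr_one]
      exact ((continuous_Kr' z).tendsto 1).comp hρ
    refine h2.congr' ?_
    have h3 : ∀ᶠ k in atTop, ‖z‖ < ρ k := by
      have : ‖z‖ < 1 := by simpa using hz
      exact hρ.eventually (lt_mem_nhds this)
    filter_upwards [h3] with k hk
    rw [hf]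
    simp only
    rw [indicator_of_mem]
    simpa using hk
  rw [ht.liminf_eq]

/-- monotone convergence -/
theorem tendsto_TPr {θ : ℂ → ℝ} (hc : ContinuousOn θ (ball 0 1))
    (h0 : ∀ z ∈ ball (0 : ℂ) 1, 0 ≤ θ z) {ρ : ℕ → ℝ} (hρ0 : ∀ k, 0 < ρ k) (hρ1 : ∀ k, ρ k < 1)
    (hρ : Tendsto ρ atTop (𝓝 1)) :
    Tendsto (fun k => ENNReal.ofReal (∫ z in ball (0 : ℂ) (ρ k), Kr (ρ k) z * θ z)) atTop
      (𝓝 (TP θ)) := by
  refine tendsto_of_le_liminf_of_limsup_le (TP_le_liminf hc h0 hρ1 hρ) ?_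
  exact limsup_le_of_le (by isBoundedDefault)
    (Eventually.of_forall fun k => ofReal_TPr_le (hρ0 k) (hρ1 k) hc h0)

/-! ### the core argument -/

/-- Averaging the maximality over a circle. -/
lemma variation_core {ε ε0 : ℝ} (hε : 0 < ε) (hεε0 : ε < ε0) {W : ℕ → ℂ → ℝ} {T : ℂ → ℝ≥0∞}
    (hWnn : ∀ k, ∀ s ∈ ball (0 : ℂ) ε0, 0 ≤ W k s)
    (hWint : ∀ k, IntegrableOn (fun θ => W k (pt ε θ)) (Ioc (-π) π)) {L : ℝ}
    (hWavg : ∀ k, Real.circleAverage (W k) 0 ε ≤ L)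
    (hTU : ∀ s ∈ ball (0 : ℂ) ε0, T s ≤ liminf (fun k => ENNReal.ofReal (W k s)) atTop)
    {B : ℂ → ℝ} (hBc : ContinuousOn B (ball 0 ε0)) {lam T0 : ℝ} (hlam : 0 ≤ lam)
    (hmax : ∀ s ∈ ball (0 : ℂ) ε0, T s ≠ ⊤ → B s + lam * T0 ≤ B 0 + lam * (T s).toReal) :
    Real.circleAverage B 0 ε + lam * T0 ≤ B 0 + lam * L := by
  have hpt : ∀ θ, pt ε θ ∈ ball (0 : ℂ) ε0 := fun θ => by
    rw [mem_ball, dist_zero_right, norm_pt, abs_of_pos hε]; exact hεε0
  have hpi : -π ≤ π := by linarith [Real.pi_pos]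
  have hpp := Real.pi_pos
  have hWavg' : ∀ k, ∫ θ in Ioc (-π) π, W k (pt ε θ) ≤ 2 * π * L := by
    intro k
    have h1 := hWavg k
    rw [circleAverage_eq_pi, intervalIntegral.integral_of_le hpi, smul_eq_mul,
      inv_mul_le_iff₀ (by positivity)] at h1
    exact h1
  have hL0 : 0 ≤ 2 * π * L := le_trans (setIntegral_nonneg measurableSet_Ioc fun θ _ =>
    hWnn 0 _ (hpt θ)) (hWavg' 0)
  set U : ℝ → ℝ≥0∞ := fun θ => liminf (fun k => ENNReal.ofReal (W k (pt ε θ))) atTop with hU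
  have hmeas : ∀ k, AEMeasurable (fun θ => ENNReal.ofReal (W k (pt ε θ)))
      (volume.restrict (Ioc (-π) π)) := fun k => (hWint k).aemeasurable.ennreal_ofReal
  have hUm : AEMeasurable U (volume.restrict (Ioc (-π) π)) := by
    simp only [hU, liminf_eq_iSup_iInf_of_nat']
    exact AEMeasurable.iSup fun n => AEMeasurable.iInf fun i => hmeas _
  have hUint : ∫⁻ θ in Ioc (-π) π, U θ ≤ ENNReal.ofReal (2 * π * L) := by
    refine (lintegral_liminf_le' hmeas).trans ?_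
    refine liminf_le_of_le (by isBoundedDefault) fun b hb => ?_
    obtain ⟨k, hk⟩ := hb.exists
    refine hk.trans ?_
    rw [← ofReal_integral_eq_lintegral_ofReal (hWint k)
      (Eventually.of_forall fun θ => hWnn k _ (hpt θ))]
    exact ENNReal.ofReal_le_ofReal (hWavg' k)
  have hUfin : ∫⁻ θ in Ioc (-π) π, U θ ≠ ⊤ := (hUint.trans_lt ENNReal.ofReal_lt_top).ne
  have hUae := ae_lt_top' hUm hUfin
  have hUi : IntegrableOn (fun θ => (U θ).toReal) (Ioc (-π) π) :=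
    integrable_toReal_of_lintegral_ne_top hUm hUfin
  have hBcont : Continuous fun θ => B (pt ε θ) := by
    rw [← continuousOn_univ]
    refine hBc.comp ?_ fun θ _ => hpt θ
    unfold pt; fun_prop
  have hBi : IntegrableOn (fun θ => B (pt ε θ)) (Ioc (-π) π) :=
    (hBcont.intervalIntegrable (-π) π).1
  have hci : ∀ a : ℝ, IntegrableOn (fun _ : ℝ => a) (Ioc (-π) π) := fun a => by simp
  have hmono : ∫ θ in Ioc (-π) π, (B (pt ε θ) + lam * T0) ≤
      ∫ θ in Ioc (-π) π, (B 0 + lam * (U θ).toReal) := by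
    refine integral_mono_ae (hBi.add (hci _)) ((hci _).add (hUi.const_mul _)) ?_
    filter_upwards [hUae] with θ hθ
    have h1 : T (pt ε θ) ≠ ⊤ := ((hTU _ (hpt θ)).trans_lt hθ).ne
    have h2 := hmax _ (hpt θ) h1
    have h3 : (T (pt ε θ)).toReal ≤ (U θ).toReal := ENNReal.toReal_mono hθ.ne (hTU _ (hpt θ))
    have h4 := mul_le_mul_of_nonneg_left h3 hlam
    linarith
  rw [integral_add hBi (hci _), integral_add (hci _) (hUi.const_mul _),
    integral_const_mul lam (fun θ => (U θ).toReal), integral_toReal hUm hUae] at hmono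
  have hUr : (∫⁻ θ in Ioc (-π) π, U θ).toReal ≤ 2 * π * L :=
    ENNReal.toReal_le_of_le_ofReal hL0 hUint
  have hvol : ∀ a : ℝ, ∫ _ in Ioc (-π) π, a = 2 * π * a := fun a => by
    rw [setIntegral_const, smul_eq_mul]
    congr 1
    rw [measureReal_def, Real.volume_Ioc, ENNReal.toReal_ofReal (by linarith)]
    ring
  rw [hvol, hvol] at hmono
  have h5 := mul_le_mul_of_nonneg_left hUr hlam
  have hB : Real.circleAverage B 0 ε = (2 * π)⁻¹ * ∫ θ in Ioc (-π) π, B (pt ε θ) := by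
    rw [circleAverage_eq_pi, intervalIntegral.integral_of_le hpi, smul_eq_mul]
  have h6 : 2 * π * Real.circleAverage B 0 ε = ∫ θ in Ioc (-π) π, B (pt ε θ) := by
    rw [hB]; field_simp
  have h7 : 2 * π * (Real.circleAverage B 0 ε + lam * T0) ≤ 2 * π * (B 0 + lam * L) := by
    rw [mul_add, h6]; linarith
  exact le_of_mul_le_mul_left h7 (by positivity)

/-! ### continuity of the boundary functional -/

lemma pt_smul (r θ : ℝ) : pt r θ = r • pt 1 θ := by simp [pt]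

lemma JJ_dilate {φ : ℂ → ℝ} {r : ℝ} (hr : 0 < r) : JJ φ r = r ^ 2 * JJ (fun z => φ (r • z)) 1 := by
  have h1 : Real.circleAverage φ 0 r = Real.circleAverage (fun z => φ (r • z)) 0 1 := by
    rw [circleAverage_eq_pi, circleAverage_eq_pi]
    simp_rw [pt_smul r]
  have h2 : ∫ z in ball (0 : ℂ) 1, φ (r • z) = (r ^ 2)⁻¹ * ∫ z in ball (0 : ℂ) r, φ z := by
    rw [Measure.setIntegral_comp_smul_of_pos volume φ (ball (0 : ℂ) 1) hr, smul_unitBall_of_pos hr,
      Complex.finrank_real_complex, smul_eq_mul]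
  unfold JJ
  rw [h1, h2]
  field_simp

lemma JJ_one_le {φ ψ : ℂ → ℝ} {η : ℝ} (hφ : ContinuousOn φ (closedBall 0 1))
    (hψ : ContinuousOn ψ (closedBall 0 1)) (h : ∀ z ∈ closedBall (0 : ℂ) 1, |φ z - ψ z| ≤ η) :
    JJ φ 1 ≤ JJ ψ 1 + 2 * η := by
  have hsp : sphere (0 : ℂ) |1| ⊆ closedBall 0 1 := by
    rw [abs_one]; exact sphere_subset_closedBall
  have i1 : CircleIntegrable φ 0 1 := ContinuousOn.circleIntegrable' (hφ.mono hsp)
  have i2 : CircleIntegrable ψ 0 1 := ContinuousOn.circleIntegrable' (hψ.mono hsp)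
  have ic : CircleIntegrable (fun _ : ℂ => η) 0 1 := circleIntegrable_const _ _ _
  have a1 : Real.circleAverage φ 0 1 ≤ Real.circleAverage ψ 0 1 + η := by
    have h1 := Real.circleAverage_mono (f₁ := φ) (f₂ := fun z => ψ z + η) (c := 0) (R := 1)
      i1 (i2.add ic) fun z hz => by
        have := (abs_le.1 (h z (hsp hz))).2; linarith
    rwa [Real.circleAverage_fun_add i2 ic, Real.circleAverage_const] at h1
  have j1 : IntegrableOn φ (ball (0 : ℂ) 1) :=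
    (hφ.integrableOn_compact (isCompact_closedBall 0 1)).mono_set ball_subset_closedBall
  have j2 : IntegrableOn ψ (ball (0 : ℂ) 1) :=
    (hψ.integrableOn_compact (isCompact_closedBall 0 1)).mono_set ball_subset_closedBall
  have jc : IntegrableOn (fun _ : ℂ => η) (ball (0 : ℂ) 1) :=
    integrableOn_const measure_ball_lt_top.ne
  have a2 : ∫ z in ball (0 : ℂ) 1, ψ z ≤ (∫ z in ball (0 : ℂ) 1, φ z) + π * η := by
    have h1 : ∫ z in ball (0 : ℂ) 1, ψ z ≤ ∫ z in ball (0 : ℂ) 1, (φ z + η) :=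
      setIntegral_mono_on j2 (j1.add jc) measurableSet_ball fun z hz => by
        have := (abs_le.1 (h z (ball_subset_closedBall hz))).1; linarith
    rw [integral_add j1 jc, setIntegral_const, smul_eq_mul, measureReal_def,
      Complex.volume_ball] at h1
    simpa using h1
  have hpi := Real.pi_pos
  have a3 : (1 / π) * ∫ z in ball (0 : ℂ) 1, ψ z ≤
      (1 / π) * ((∫ z in ball (0 : ℂ) 1, φ z) + π * η) := by gcongr
  have a4 : (1 / π) * ((∫ z in ball (0 : ℂ) 1, φ z) + π * η) =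
      (1 / π) * (∫ z in ball (0 : ℂ) 1, φ z) + η := by field_simp
  unfold JJ
  rw [one_pow, one_mul, one_mul]
  linarith

lemma JJ_near {Ξ : ℂ → ℂ → ℝ} {ε0 : ℝ} (hε0 : 0 < ε0)
    (hΞc : ContinuousOn (fun p : ℂ × ℂ => Ξ p.1 p.2) (ball 0 ε0 ×ˢ closedBall 0 1))
    {η : ℝ} (hη : 0 < η) : ∃ δ : ℝ, 0 < δ ∧ δ < ε0 ∧ δ < 1 ∧ ∀ s ∈ closedBall (0 : ℂ) δ,
      ∀ r ∈ Icc (1 - δ) 1, JJ (Ξ s) r ≤ JJ (Ξ 0) 1 + η := by
  have hK : IsCompact (closedBall (0 : ℂ) (ε0 / 2) ×ˢ closedBall (0 : ℂ) 1) :=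
    (isCompact_closedBall _ _).prod (isCompact_closedBall _ _)
  have hcK : ContinuousOn (fun p : ℂ × ℂ => Ξ p.1 p.2)
      (closedBall (0 : ℂ) (ε0 / 2) ×ˢ closedBall (0 : ℂ) 1) :=
    hΞc.mono (prod_mono (closedBall_subset_ball (by linarith)) le_rfl)
  have hu := hK.uniformContinuousOn_of_continuous hcK
  rw [Metric.uniformContinuousOn_iff] at hu
  obtain ⟨δ1, hδ1, hu⟩ := hu (η / 4) (by positivity)
  set b0 := JJ (Ξ 0) 1 with hb0
  set N : ℝ := |b0| + η with hN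
  have hN0 : 0 < N := by positivity
  set δ := min (min (min (δ1 / 2) (ε0 / 2)) (1 / 2)) (η / (4 * N)) with hδ
  have hδ0 : 0 < δ := by positivity
  have hδa : δ ≤ δ1 / 2 := (min_le_left _ _).trans ((min_le_left _ _).trans (min_le_left _ _))
  have hδb : δ ≤ ε0 / 2 := (min_le_left _ _).trans ((min_le_left _ _).trans (min_le_right _ _))
  have hδc : δ ≤ 1 / 2 := (min_le_left _ _).trans (min_le_right _ _)
  have hδd : δ ≤ η / (4 * N) := min_le_right _ _
  refine ⟨δ, hδ0, by linarith, by linarith, fun s hs r hr => ?_⟩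
  have hr0 : 0 < r := by linarith [hr.1]
  have hs' : ‖s‖ ≤ δ := by simpa using hs
  have hsK : s ∈ closedBall (0 : ℂ) (ε0 / 2) := by
    rw [mem_closedBall, dist_zero_right]; linarith
  have h0K : (0 : ℂ) ∈ closedBall (0 : ℂ) (ε0 / 2) := mem_closedBall_self (by linarith)
  have hrz : ∀ z ∈ closedBall (0 : ℂ) 1, r • z ∈ closedBall (0 : ℂ) 1 := by
    intro z hz
    rw [mem_closedBall, dist_zero_right] at hz ⊢
    rw [norm_smul, Real.norm_of_nonneg hr0.le]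
    calc r * ‖z‖ ≤ 1 * 1 := mul_le_mul hr.2 hz (norm_nonneg _) zero_le_one
      _ = 1 := one_mul 1
  have hpoint : ∀ z ∈ closedBall (0 : ℂ) 1, |Ξ s (r • z) - Ξ 0 z| ≤ η / 4 := by
    intro z hz
    have h1 := hu (s, r • z) ⟨hsK, hrz z hz⟩ (0, z) ⟨h0K, hz⟩ ?_
    · exact le_of_lt h1
    · have hz' : ‖z‖ ≤ 1 := by simpa using hz
      rw [Prod.dist_eq]
      refine max_lt ?_ ?_
      · simp only [dist_zero_right]; linarith
      · have : dist (r • z) z ≤ |r - 1| := by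
          rw [dist_eq_norm]
          have e1 : r • z - z = (r - 1) • z := by rw [sub_smul, one_smul]
          rw [e1, norm_smul, Real.norm_eq_abs]
          calc |r - 1| * ‖z‖ ≤ |r - 1| * 1 := by gcongr
            _ = |r - 1| := mul_one _
        have h3 : |r - 1| ≤ δ := by
          rw [abs_le]; constructor <;> linarith [hr.1, hr.2]
        simp only
        linarith
  have hc1 : ContinuousOn (fun z => Ξ s (r • z)) (closedBall 0 1) :=
    hcK.comp (f := fun z : ℂ => (s, r • z)) (by fun_prop) fun z hz => ⟨hsK, hrz z hz⟩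
  have hc2 : ContinuousOn (Ξ 0) (closedBall 0 1) :=
    hcK.comp (f := fun z : ℂ => ((0 : ℂ), z)) (by fun_prop) fun z hz => ⟨h0K, hz⟩
  have hJ := JJ_one_le hc1 hc2 hpoint
  rw [JJ_dilate hr0]
  have hrr : 0 ≤ 1 - r ^ 2 ∧ 1 - r ^ 2 ≤ 2 * δ := by
    constructor
    · nlinarith [hr.2]
    · nlinarith [hr.1, hr.2]
  have hr2 : 0 ≤ r ^ 2 := by positivity
  have h1 : r ^ 2 * JJ (fun z => Ξ s (r • z)) 1 ≤ r ^ 2 * (b0 + 2 * (η / 4)) :=
    mul_le_mul_of_nonneg_left hJ hr2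
  have h2 : r ^ 2 * (b0 + 2 * (η / 4)) = (b0 + η / 2) - (1 - r ^ 2) * (b0 + η / 2) := by ring
  have h3 : -((1 - r ^ 2) * (b0 + η / 2)) ≤ 2 * δ * N := by
    have h4 : -(b0 + η / 2) ≤ N := by
      have := neg_abs_le b0
      simp only [hN]; linarith
    calc -((1 - r ^ 2) * (b0 + η / 2)) = (1 - r ^ 2) * (-(b0 + η / 2)) := by ring
      _ ≤ (1 - r ^ 2) * N := mul_le_mul_of_nonneg_left h4 hrr.1
      _ ≤ 2 * δ * N := mul_le_mul_of_nonneg_right hrr.2 hN0.le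
  have h5 : 2 * δ * N ≤ η / 2 := by
    rw [le_div_iff₀ (by positivity)] at hδd
    linarith
  linarith

/-! ### the theorem -/

section
variable {Θ Ξ : ℂ → ℂ → ℝ} {ε0 : ℝ}

/-- **the second variation inequality**, kernel `(1-|z|²)/π` -/
theorem second_variation_poly (hε0 : 0 < ε0)
    (hΘ : ∀ s ∈ ball (0 : ℂ) ε0, ∀ z ∈ ball (0 : ℂ) 1,
      ContDiffAt ℝ 2 (fun p : ℂ × ℂ => Θ p.1 p.2) (s, z))
    (hΞ : ∀ s ∈ ball (0 : ℂ) ε0, ∀ z ∈ ball (0 : ℂ) 1,
      ContDiffAt ℝ 2 (fun p : ℂ × ℂ => Ξ p.1 p.2) (s, z))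
    (hid : ∀ s ∈ ball (0 : ℂ) ε0, ∀ z ∈ ball (0 : ℂ) 1, ddb (fun s => Θ s z) s = ddb (Ξ s) z)
    (hΘ0 : ∀ s ∈ ball (0 : ℂ) ε0, ∀ z ∈ ball (0 : ℂ) 1, 0 ≤ Θ s z)
    (hΞc : ContinuousOn (fun p : ℂ × ℂ => Ξ p.1 p.2) (ball 0 ε0 ×ˢ closedBall 0 1))
    {B : ℂ → ℝ} (hBc : ContinuousOn B (ball 0 ε0)) {c : ℝ}
    (hBavg : ∀ᶠ ε in 𝓝[>] (0 : ℝ), B 0 + ε ^ 2 * c ≤ Real.circleAverage B 0 ε)
    {lam : ℝ} (hlam : 0 ≤ lam) (hT : TP (Θ 0) ≠ ⊤)
    (hmax : ∀ s ∈ ball (0 : ℂ) ε0, TP (Θ s) ≠ ⊤ →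
      B s + lam * (TP (Θ 0)).toReal ≤ B 0 + lam * (TP (Θ s)).toReal) :
    c ≤ lam * JJ (Ξ 0) 1 := by
  refine le_of_forall_pos_le_add fun η' hη' => ?_
  set η : ℝ := η' / (lam + 1) with hηdef
  have hη : 0 < η := by positivity
  obtain ⟨δ, hδ0, hδ1, hδ2, hnear⟩ := JJ_near hε0 hΞc hη
  set m := JJ (Ξ 0) 1 with hm
  obtain ⟨ε, hBε, hε, hεδ⟩ : ∃ ε : ℝ, B 0 + ε ^ 2 * c ≤ Real.circleAverage B 0 ε ∧ 0 < ε ∧ ε < δ :=
    (hBavg.and (Ioo_mem_nhdsGT hδ0)).exists
  have hεε0 : ε < ε0 := by linarith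
  have h00 : (0 : ℂ) ∈ ball (0 : ℂ) ε0 := mem_ball_self hε0
  have hsub1 : closedBall (0 : ℂ) ε ⊆ ball 0 ε0 := closedBall_subset_ball hεε0
  set L := (TP (Θ 0)).toReal + ε ^ 2 * (m + η) with hL
  -- step 2
  have step2 : ∀ r ∈ Ico (1 - δ) 1, Real.circleAverage
      (fun s => ∫ z in ball (0 : ℂ) r, Kr r z * Θ s z) 0 ε ≤ L := by
    intro r hr
    have hr0 : 0 < r := by linarith [hr.1]
    have hr1 : r < 1 := hr.2
    have hsub2 : closedBall (0 : ℂ) r ⊆ ball 0 1 := closedBall_subset_ball hr1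
    have h1 := second_poly hε hr0 (fun s hs z hz => hΘ s (hsub1 hs) z (hsub2 hz))
      (fun s hs z hz => hΞ s (hsub1 hs) z (hsub2 hz))
      (fun s hs z hz => hid s (hsub1 (ball_subset_closedBall hs)) z
        (hsub2 (ball_subset_closedBall hz)))
    have h2 : ∫ s in ball (0 : ℂ) ε, Gr ε s * JJ (Ξ s) r ≤
        ∫ s in ball (0 : ℂ) ε, Gr ε s * (m + η) := by
      have hcΞ : ContinuousOn (fun p : ℂ × ℂ => Ξ p.1 p.2) (closedBall 0 ε ×ˢ closedBall 0 r) :=
        hΞc.mono (prod_mono hsub1 (closedBall_subset_closedBall hr1.le))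
      refine setIntegral_mono_on (integrableOn_Gr_mul hε (contOn_JJ hr0.le hcΞ))
        ((integrableOn_Gr hε).mul_const _) measurableSet_ball fun s hs => ?_
      refine mul_le_mul_of_nonneg_left ?_ (Gr_nonneg hs)
      have hs1 : s ∈ closedBall (0 : ℂ) δ :=
        closedBall_subset_closedBall hεδ.le (ball_subset_closedBall hs)
      exact hnear s hs1 r ⟨hr.1, hr1.le⟩
    rw [integral_mul_const, integral_Gr hε] at h2
    have h3 : ∫ z in ball (0 : ℂ) r, Kr r z * Θ 0 z ≤ (TP (Θ 0)).toReal := by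
      have := ofReal_TPr_le hr0 hr1 (θ := Θ 0)
        (fun z hz => (contDiffAt_snd (hΘ 0 h00 z hz)).continuousAt.continuousWithinAt)
        (hΘ0 0 h00)
      exact (ENNReal.ofReal_le_iff_le_toReal hT).1 this
    linarith
  set ρ : ℕ → ℝ := fun k => 1 - δ / (k + 1) with hρdef
  have hρ1 : ∀ k, ρ k < 1 := fun k => by
    have : 0 < δ / ((k : ℝ) + 1) := by positivity
    simp only [hρdef]; linarith
  have hρδ : ∀ k, 1 - δ ≤ ρ k := fun k => by
    have : δ / ((k : ℝ) + 1) ≤ δ := div_le_self hδ0.le (by linarith [k.cast_nonneg (α := ℝ)])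
    simp only [hρdef]; linarith
  have hρ0 : ∀ k, 0 < ρ k := fun k => by linarith [hρδ k]
  have hρ : Tendsto ρ atTop (𝓝 1) := by
    have h1 : Tendsto (fun k : ℕ => δ / ((k : ℝ) + 1)) atTop (𝓝 0) := by
      have := (tendsto_one_div_add_atTop_nhds_zero_nat (𝕜 := ℝ)).const_mul δ
      simpa [div_eq_mul_inv] using this
    simpa using tendsto_const_nhds.sub h1
  have hcore := variation_core (W := fun k s => ∫ z in ball (0 : ℂ) (ρ k), Kr (ρ k) z * Θ s z)
    (T := fun s => TP (Θ s)) (T0 := (TP (Θ 0)).toReal) (L := L) hε hεε0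
    (fun k s hs => setIntegral_nonneg measurableSet_ball fun z hz => mul_nonneg (Kr_nonneg hz)
      (hΘ0 s hs z (ball_subset_ball (hρ1 k).le hz)))
    (fun k => by
      have hc : ContinuousOn (fun s => ∫ z in ball (0 : ℂ) (ρ k), Kr (ρ k) z * Θ s z)
          (closedBall 0 ε) := by
        refine contOn_setIntegral (H := fun s z => Kr (ρ k) z * Θ s z) ?_
        refine ((continuous_Kr _).comp_continuousOn continuousOn_snd).mul fun p hp => ?_
        exact (hΘ p.1 (hsub1 hp.1) p.2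
          (closedBall_subset_ball (hρ1 k) hp.2)).continuousAt.continuousWithinAt
      have hc2 : Continuous fun θ => ∫ z in ball (0 : ℂ) (ρ k), Kr (ρ k) z * Θ (pt ε θ) z := by
        rw [← continuousOn_univ]
        refine hc.comp ?_ fun θ _ => pt_mem hε.le le_rfl θ
        unfold pt; fun_prop
      exact (hc2.intervalIntegrable (-π) π).1)
    (fun k => step2 (ρ k) ⟨hρδ k, hρ1 k⟩)
    (fun s hs => TP_le_liminf (fun z hz => (contDiffAt_snd
      (hΘ s hs z hz)).continuousAt.continuousWithinAt) (hΘ0 s hs) hρ1 hρ)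
    hBc hlam hmax
  have h7 : ε ^ 2 * c ≤ ε ^ 2 * (lam * (m + η)) := by
    rw [hL] at hcore
    nlinarith [hcore, hBε]
  have h8 : c ≤ lam * (m + η) := le_of_mul_le_mul_left h7 (by positivity)
  have h9 : lam * η ≤ η' := by
    rw [hηdef, mul_div_assoc']
    rw [div_le_iff₀ (by positivity)]
    nlinarith
  linarith

/-- a `C²` function satisfies the averaged inequality with every `c < ∂∂̄B(0)` -/
theorem avg_of_ddb {B : ℂ → ℝ} (hB : ContDiffAt ℝ 2 B 0) {c : ℝ} (hc : c < ddb B 0) :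
    ∀ᶠ ε in 𝓝[>] (0 : ℝ), B 0 + ε ^ 2 * c ≤ Real.circleAverage B 0 ε := by
  have hev : ∀ᶠ z in 𝓝 (0 : ℂ), ContDiffAt ℝ 2 B z := hB.eventually (by simp)
  obtain ⟨R, hR, hball⟩ := Metric.eventually_nhds_iff_ball.1 hev
  have hRc : ∀ z ∈ closedBall (0 : ℂ) (R / 2), ContDiffAt ℝ 2 B z := fun z hz =>
    hball z (closedBall_subset_ball (by linarith) hz)
  have hcd : ContinuousOn (ddb B) (closedBall 0 (R / 2)) := contOn_ddb hRc
  have hca : ContinuousAt (ddb B) 0 :=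
    hcd.continuousAt (closedBall_mem_nhds _ (by positivity))
  obtain ⟨R2, hR2, hb2⟩ := Metric.eventually_nhds_iff_ball.1 (hca.eventually (lt_mem_nhds hc))
  have hmin : 0 < min (R / 2) R2 := by positivity
  filter_upwards [Ioo_mem_nhdsGT hmin] with ε hε
  have hεR : ε ≤ R / 2 := hε.2.le.trans (min_le_left _ _)
  have hεR2 : ε < R2 := hε.2.trans_le (min_le_right _ _)
  have h1 := green_jensen hε.1 fun z hz => hRc z (closedBall_subset_closedBall hεR hz)
  have h2 : ∫ z in ball (0 : ℂ) ε, Gr ε z * c ≤ ∫ z in ball (0 : ℂ) ε, Gr ε z * ddb B z := by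
    refine setIntegral_mono_on ((integrableOn_Gr hε.1).mul_const _) (integrableOn_Gr_mul hε.1
      (hcd.mono (closedBall_subset_closedBall hεR))) measurableSet_ball fun z hz => ?_
    refine mul_le_mul_of_nonneg_left ?_ (Gr_nonneg hz)
    exact (hb2 z (ball_subset_ball hεR2.le hz)).le
  rw [integral_mul_const, integral_Gr hε.1] at h2
  linarith

end

end Vale.Agent.P272.GJ
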